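import Vale.Agent.P159.TM.H179.Core

/-!
P159, T1, row IH: assembly. The fatness of the clusters of the free box (`FAT`, row of 519) and
`ISUS` give `IH`.
-/

open Finset
open scoped ENNReal

set_option linter.unusedSectionVars false

namespace Vale.Agent.P159.TM.H179

open Vale.Agent.P159.TM.H60 Vale.Agent.P159.TM.SpecI Vale.Agent.P159.TM.H519

open Classical in
/-- fatness of the clusters of the free box of side `2 ^ k`, cells of side `2 ^ (k - (i + t₀))` -/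
def FAT (b : ℝ) (hb : 0 ≤ b) : Prop :=
  ∃ t₀ : ℕ, ∃ c₀ : ℝ, 0 < c₀ ∧ ∀ i : ℕ, ∃ k₀ : ℕ, i + t₀ ≤ k₀ ∧ ∀ k : ℕ, k₀ ≤ k →
    ∀ (u : V (2 ^ k)) (j : JB (2 ^ k) (2 ^ (k - (i + t₀)))),
      c₀ * ((2 : ℝ) ^ (k - (i + t₀))) ^ 2 *
        FK (sg (2 ^ k) hb (epsK (2 ^ i) k)) (fun om x =>
          if Mt (sg (2 ^ k) hb (epsK (2 ^ i) k)) (ring (2 ^ k)) om u ∧
            Mt (sg (2 ^ k) hb (epsK (2 ^ i) k)) (cells (2 ^ k) (2 ^ (k - (i + t₀))) j.1) om u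
          then |(sg (2 ^ k) hb (epsK (2 ^ i) k)).D x u| else 0)
      ≤ FK (sg (2 ^ k) hb (epsK (2 ^ i) k)) (fun om x =>
          if Mt (sg (2 ^ k) hb (epsK (2 ^ i) k)) (ring (2 ^ k)) om u ∧
            Mt (sg (2 ^ k) hb (epsK (2 ^ i) k)) (cells (2 ^ k) (2 ^ (k - (i + t₀))) j.1) om u
          then |(sg (2 ^ k) hb (epsK (2 ^ i) k)).D x u| *
            ms (sg (2 ^ k) hb (epsK (2 ^ i) k)) (blk (2 ^ k) (2 ^ (k - (i + t₀))) j.1) om u x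
          else 0)

lemma pow_ge {a : ℕ} {x : ℝ} (h : x ≤ a) : (2 : ℝ) ^ x ≤ 2 ^ a := by
  rw [← Real.rpow_natCast]
  exact Real.rpow_le_rpow_of_exponent_le one_le_two h

lemma pow_le {a : ℕ} {x : ℝ} (h : (a : ℝ) ≤ x) : (2 : ℝ) ^ a ≤ (2 : ℝ) ^ x := by
  rw [← Real.rpow_natCast]
  exact Real.rpow_le_rpow_of_exponent_le one_le_two h

lemma le_six (i : ℕ) : (i : ℝ) ≤ 6 * (2 : ℝ) ^ ((i : ℝ) / 4) := by
  have h1 : (2 : ℝ) ^ ((i : ℝ) / 4) = Real.exp (Real.log 2 * ((i : ℝ) / 4)) :=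
    Real.rpow_def_of_pos (by norm_num) _
  have h2 := Real.add_one_le_exp (Real.log 2 * ((i : ℝ) / 4))
  have h3 := Real.log_two_gt_d9
  have h4 : (0 : ℝ) ≤ i := Nat.cast_nonneg i
  rw [h1]
  nlinarith

/-- the error terms -/
lemma err_le (C c₀ : ℝ) (hC : 0 ≤ C) (hc : 0 < c₀) (i t₀ : ℕ) :
    (C / 2 ^ (i / 8) + 1 / 2 ^ i) +
      4 * ((2 * 2 ^ (i / 2 + t₀) + 1) / 2 ^ (i + t₀) + 1 / 2 ^ (i - i / 8)) +
      (i : ℝ) * 2 ^ (i / 8 + 2 * t₀) * (9 / ((2 ^ (i / 2 + t₀) + 1) * c₀)) +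
      4 * Real.exp 2 / Real.cosh i ≤
    (2 * C + 1 + 16 + 108 * 2 ^ t₀ / c₀ + 8 * Real.exp 2) * (2 : ℝ) ^ (-(1 / 16 * (i : ℝ))) := by
  set y : ℝ := (2 : ℝ) ^ ((i : ℝ) / 16) with hy
  have hy0 : 0 < y := Real.rpow_pos_of_pos (by norm_num) _
  have hyi : (2 : ℝ) ^ (-(1 / 16 * (i : ℝ))) = 1 / y := by
    rw [hy, one_div ((2 : ℝ) ^ ((i : ℝ) / 16)), ← Real.rpow_neg (by norm_num)]
    congr 1
    ring
  rw [hyi]
  have hi0 : (0 : ℝ) ≤ i := Nat.cast_nonneg i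
  -- 1
  have a1 : C / 2 ^ (i / 8) ≤ 2 * C * (1 / y) := by
    have h1 : y ≤ 2 ^ (i / 8 + 1) := by
      apply pow_ge
      have h2 : i ≤ 8 * (i / 8) + 7 := by omega
      have h3 : (i : ℝ) ≤ 8 * ((i / 8 : ℕ) : ℝ) + 7 := by exact_mod_cast h2
      push_cast
      linarith
    rw [pow_succ] at h1
    rw [mul_one_div, div_le_div_iff₀ (by positivity) hy0]
    nlinarith
  -- 2
  have a2 : (1 : ℝ) / 2 ^ i ≤ 1 * (1 / y) := by
    rw [one_mul]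
    exact one_div_le_one_div_of_le hy0 (pow_ge (by linarith))
  -- 3
  have a3 : ((2 : ℝ) * 2 ^ (i / 2 + t₀) + 1) / 2 ^ (i + t₀) ≤ 3 * (1 / y) := by
    have h1 : y ≤ 2 ^ (i - i / 2) := by
      apply pow_ge
      have h2 : i ≤ 2 * (i - i / 2) := by omega
      have h3 : (i : ℝ) ≤ 2 * ((i - i / 2 : ℕ) : ℝ) := by exact_mod_cast h2
      linarith
    have h4 : (1 : ℝ) ≤ 2 ^ (i / 2 + t₀) := one_le_pow₀ (by norm_num)
    have h5 : (2 : ℝ) ^ (i + t₀) = 2 ^ (i / 2 + t₀) * 2 ^ (i - i / 2) := by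
      rw [← pow_add]
      congr 1
      omega
    rw [mul_one_div, div_le_div_iff₀ (by positivity) hy0, h5]
    calc (2 * (2 : ℝ) ^ (i / 2 + t₀) + 1) * y ≤ (3 * 2 ^ (i / 2 + t₀)) * y :=
          mul_le_mul_of_nonneg_right (by linarith) hy0.le
      _ ≤ (3 * 2 ^ (i / 2 + t₀)) * 2 ^ (i - i / 2) :=
          mul_le_mul_of_nonneg_left h1 (by positivity)
      _ = _ := by ring
  -- 4
  have a4 : (1 : ℝ) / 2 ^ (i - i / 8) ≤ 1 * (1 / y) := by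
    rw [one_mul]
    refine one_div_le_one_div_of_le hy0 (pow_ge ?_)
    have h2 : i ≤ 2 * (i - i / 8) := by omega
    have h3 : (i : ℝ) ≤ 2 * ((i - i / 8 : ℕ) : ℝ) := by exact_mod_cast h2
    linarith
  -- 5
  have a5 : (i : ℝ) * 2 ^ (i / 8 + 2 * t₀) * (9 / ((2 ^ (i / 2 + t₀) + 1) * c₀)) ≤
      108 * 2 ^ t₀ / c₀ * (1 / y) := by
    have h1 : (i : ℝ) * 2 ^ (i / 8) * y ≤ 12 * 2 ^ (i / 2) := by
      have h2 : (2 : ℝ) ^ (i / 8) ≤ (2 : ℝ) ^ ((i : ℝ) / 8) := by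
        apply pow_le
        have : 8 * (i / 8) ≤ i := Nat.mul_div_le i 8
        have h3 : (8 : ℝ) * ((i / 8 : ℕ) : ℝ) ≤ i := by exact_mod_cast this
        linarith
      have h4 : (2 : ℝ) ^ ((i : ℝ) / 4) * (2 : ℝ) ^ ((i : ℝ) / 8) * y ≤ 2 ^ (i / 2 + 1) := by
        rw [hy, ← Real.rpow_add (by norm_num), ← Real.rpow_add (by norm_num)]
        apply pow_ge
        have h2 : i ≤ 2 * (i / 2) + 1 := by omega
        have h3 : (i : ℝ) ≤ 2 * ((i / 2 : ℕ) : ℝ) + 1 := by exact_mod_cast h2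
        push_cast
        linarith
      calc (i : ℝ) * 2 ^ (i / 8) * y ≤
          (6 * (2 : ℝ) ^ ((i : ℝ) / 4)) * (2 : ℝ) ^ ((i : ℝ) / 8) * y := by
            refine mul_le_mul_of_nonneg_right (mul_le_mul (le_six i) h2 (by positivity)
              (by positivity)) hy0.le
        _ = 6 * ((2 : ℝ) ^ ((i : ℝ) / 4) * (2 : ℝ) ^ ((i : ℝ) / 8) * y) := by ring
        _ ≤ 6 * 2 ^ (i / 2 + 1) := mul_le_mul_of_nonneg_left h4 (by norm_num)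
        _ = _ := by rw [pow_succ]; ring
    have h5 : (i : ℝ) * 2 ^ (i / 8 + 2 * t₀) * (9 / ((2 ^ (i / 2 + t₀) + 1) * c₀)) ≤
        (i : ℝ) * 2 ^ (i / 8 + 2 * t₀) * (9 / (2 ^ (i / 2 + t₀) * c₀)) := by
      refine mul_le_mul_of_nonneg_left ?_ (by positivity)
      refine div_le_div_of_nonneg_left (by norm_num) (by positivity) ?_
      refine mul_le_mul_of_nonneg_right (by linarith) hc.le
    refine h5.trans ?_
    have e1 : (i : ℝ) * 2 ^ (i / 8 + 2 * t₀) * (9 / (2 ^ (i / 2 + t₀) * c₀)) =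
        9 * 2 ^ t₀ / c₀ * (((i : ℝ) * 2 ^ (i / 8)) / 2 ^ (i / 2)) := by
      rw [pow_add, pow_add, two_mul, pow_add]
      field_simp
    have e2 : 108 * 2 ^ t₀ / c₀ * (1 / y) = 9 * 2 ^ t₀ / c₀ * (12 / y) := by
      field_simp
      norm_num
    rw [e1, e2]
    refine mul_le_mul_of_nonneg_left ?_ (by positivity)
    rw [div_le_div_iff₀ (by positivity) hy0]
    exact h1
  -- 6
  have a6 : 4 * Real.exp 2 / Real.cosh i ≤ 8 * Real.exp 2 * (1 / y) := by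
    have h1 : y / 2 ≤ Real.cosh i := by
      have h2 : y ≤ Real.exp i := by
        rw [hy, Real.rpow_def_of_pos (by norm_num)]
        apply Real.exp_le_exp.2
        have h3 := Real.log_two_lt_d9
        nlinarith
      rw [Real.cosh_eq]
      have := Real.exp_pos (-(i : ℝ))
      linarith
    have hch := Real.cosh_pos (i : ℝ)
    rw [mul_one_div, div_le_div_iff₀ hch hy0]
    have := Real.exp_pos 2
    nlinarith
  have e : (2 * C + 1 + 16 + 108 * 2 ^ t₀ / c₀ + 8 * Real.exp 2) * (1 / y) =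
      (2 * C * (1 / y) + 1 * (1 / y)) + 4 * (3 * (1 / y) + 1 * (1 / y)) +
        108 * 2 ^ t₀ / c₀ * (1 / y) + 8 * Real.exp 2 * (1 / y) := by ring
  rw [e]
  exact add_le_add (add_le_add (add_le_add (add_le_add a1 a2)
    (mul_le_mul_of_nonneg_left (add_le_add a3 a4) (by norm_num))) a5) a6

section

variable {n : ℕ} [NeZero n]

/-- the variance of the average of a cell -/
lemma cell_var {b ε : ℝ} (hb : 0 ≤ b) (hε : 0 < ε) {S : ℕ} (hS : 1 ≤ S) {β : ℕ × ℕ}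
    (h1 : β.1 < n / S) (h2 : β.2 < n / S) :
    SB n b ε ∅ (fun h => pr (ind (cells n S β)) h ^ 2) =
      ((S : ℝ) ^ 2) ^ 2 * ex b (inn n) ∅ (full ε) (fun h => SpecI.avg S β h ^ 2) *
        SB n b ε ∅ (fun _ => 1) := by
  have hZ := SB_pos hb hε (∅ : Set (V n))
  rw [ex_eq, coe_empty]
  have e1 : SB n b ε ∅ (fun h => pr (ind (cells n S β)) h ^ 2) =
      ((S : ℝ) ^ 2) ^ 2 * SB n b ε ∅ (fun h => SpecI.avg S β h ^ 2) := by
    unfold SB H708.SS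
    rw [← tsum_mul_left]
    refine tsum_congr fun h => ?_
    beta_reduce
    rw [pr_ind, ← avg_eq hS h1 h2]
    ring
  rw [e1]
  field_simp

end

/-- **Row IH from the fatness.** -/
theorem ih_of_fat {b : ℝ} (hb : 0 ≤ b) (hF : FAT b hb) (h2 : ISUS b) :
    ∃ C c : ℝ, 0 < C ∧ 0 < c ∧ ∃ i₀ : ℕ, ∀ i : ℕ, i₀ ≤ i → ∃ k₀ : ℕ, ∀ k : ℕ,
    k₀ ≤ k → ∀ φ : V (2 ^ k) → ℝ, (∀ x, |φ x| ≤ 1 / 4 ^ k) →
      exF b (2 ^ i) k (fun h => pr φ h ^ 2) - C * (2 : ℝ) ^ (-(c * i)) / 4 ^ i ≤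
        exD b (2 ^ i) k (fun h => pr φ h ^ 2) := by
  obtain ⟨t₀, c₀, hc₀, hF⟩ := hF
  obtain ⟨C, hC, h2⟩ := h2
  refine ⟨2 * C + 1 + 16 + 108 * 2 ^ t₀ / c₀ + 8 * Real.exp 2, 1 / 16, by positivity, by norm_num,
    0, fun i _ => ?_⟩
  obtain ⟨k₁, hk₁, hF⟩ := hF i
  have hsi : i - i / 8 ≤ i := Nat.sub_le _ _
  obtain ⟨k₂, hk₂, h2⟩ := h2 i (i - i / 8) hsi (1 / 2 ^ i) (by positivity)
  refine ⟨max k₁ k₂, fun k hk φ hφ => ?_⟩
  have hka : k₁ ≤ k := (le_max_left _ _).trans hk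
  have hkb : k₂ ≤ k := (le_max_right _ _).trans hk
  have hik : i + t₀ ≤ k := hk₁.trans hka
  have hF := hF k hka
  have h2 := h2 k hkb
  have hs8 : i - (i - i / 8) = i / 8 := by omega
  rw [hs8] at h2
  set s := i - i / 8 with hs
  have hsk : s ≤ k := by omega
  set ε := epsK (2 ^ i) k with hε
  have hεe : ε = ((2 : ℝ) ^ i) ^ 2 / 4 ^ k := rfl
  have hε0 : 0 < ε := by rw [hεe]; positivity
  have hnS : 2 ^ k / 2 ^ (k - s) = 2 ^ s := by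
    rw [Nat.pow_div (Nat.sub_le _ _) (by norm_num)]
    congr 1
    omega
  have hS1 : 1 ≤ 2 ^ (k - s) := Nat.one_le_two_pow
  have hl1 : 1 ≤ 2 ^ (k - (i + t₀)) := Nat.one_le_two_pow
  have hSn : 2 ^ (k - s) ∣ 2 ^ k := pow_dvd_pow 2 (Nat.sub_le _ _)
  have hln : 2 ^ (k - (i + t₀)) ∣ 2 ^ k := pow_dvd_pow 2 (Nat.sub_le _ _)
  have hZ := SB_pos (n := 2 ^ k) hb hε0 ∅
  have e4 : ∀ a : ℕ, (4 : ℝ) ^ a = 2 ^ a * 2 ^ a := fun a => by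
    rw [← mul_pow]; norm_num
  have eS : (2 : ℝ) ^ (k - s) * 2 ^ s = 2 ^ k := by
    rw [← pow_add]; congr 1; omega
  have el : (2 : ℝ) ^ (k - (i + t₀)) * 2 ^ (i + t₀) = 2 ^ k := by
    rw [← pow_add]; congr 1; omega
  have hcore := core (n := 2 ^ k) hb hε0 (S := 2 ^ (k - s)) (l := 2 ^ (k - (i + t₀)))
    (m := 2 ^ (i / 2 + t₀)) hS1 hSn hl1 hln
    (μ := c₀ * ((2 : ℝ) ^ (k - (i + t₀))) ^ 2) (η := C / 2 ^ (i / 8) + 1 / 2 ^ i) (Λ := (i : ℝ))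
    (by positivity) (Nat.cast_nonneg _)
    (fun i₁ j₁ hi hj => by
      rw [cell_var hb hε0 hS1 (β := (i₁, j₁)) hi hj]
      rw [hnS] at hi hj
      have h3 := h2 i₁ j₁ hi hj
      have h4 : (1 - (C / 2 ^ (i / 8) + 1 / 2 ^ i)) * ((((2 ^ (k - s) : ℕ) : ℝ)) ^ 2 / ε) =
          ((((2 ^ (k - s) : ℕ) : ℝ)) ^ 2) ^ 2 *
            ((1 - C / 2 ^ (i / 8) - 1 / 2 ^ i) * (4 ^ s / 4 ^ i)) := by
        rw [hεe]
        push_cast
        rw [e4 k, e4 s, e4 i, ← eS]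
        field_simp
        ring
      rw [h4]
      refine mul_le_mul_of_nonneg_right (mul_le_mul_of_nonneg_left h3 (by positivity)) hZ.le)
    hF
  have he3 := e3_box (n := 2 ^ k) hb hε0 (ring (2 ^ k)) hφ
  have hlhs : exF b (2 ^ i) k (fun h => pr φ h ^ 2) - exD b (2 ^ i) k (fun h => pr φ h ^ 2) =
      SB (2 ^ k) b ε ∅ (fun h => pr φ h ^ 2) / SB (2 ^ k) b ε ∅ (fun _ => 1) -
      SB (2 ^ k) b ε (ring (2 ^ k) : Set (V (2 ^ k))) (fun h => pr φ h ^ 2) /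
        SB (2 ^ k) b ε (ring (2 ^ k) : Set (V (2 ^ k))) (fun _ => 1) := by
    unfold exF exD
    rw [ex_eq, ex_eq, coe_empty]
  rw [← hlhs] at he3
  have herr := err_le C c₀ hC.le hc₀ i t₀
  set R : ℝ := (2 * C + 1 + 16 + 108 * 2 ^ t₀ / c₀ + 8 * Real.exp 2) *
    (2 : ℝ) ^ (-(1 / 16 * (i : ℝ))) with hR
  have hcoef : (C / 2 ^ (i / 8) + 1 / 2 ^ i) +
      4 * ((2 * ((2 ^ (i / 2 + t₀) : ℕ) : ℝ) + 1) * ((2 ^ (k - (i + t₀)) : ℕ) : ℝ) +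
        ((2 ^ (k - s) : ℕ) : ℝ)) / ((2 ^ k : ℕ) : ℝ) +
      (i : ℝ) * Real.sqrt (((2 ^ (k - s) : ℕ) : ℝ) ^ 2 / ε) *
        (9 / ((((2 ^ (i / 2 + t₀) : ℕ) : ℝ) + 1) * (c₀ * ((2 : ℝ) ^ (k - (i + t₀))) ^ 2))) +
      4 * Real.exp 2 / Real.cosh i ≤ R := by
    refine le_trans (le_of_eq ?_) herr
    have f1 : 4 * ((2 * ((2 ^ (i / 2 + t₀) : ℕ) : ℝ) + 1) * ((2 ^ (k - (i + t₀)) : ℕ) : ℝ) +
        ((2 ^ (k - s) : ℕ) : ℝ)) / ((2 ^ k : ℕ) : ℝ) =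
        4 * ((2 * 2 ^ (i / 2 + t₀) + 1) / 2 ^ (i + t₀) + 1 / 2 ^ s) := by
      push_cast
      have g1 : (1 : ℝ) / 2 ^ s = 2 ^ (k - s) / 2 ^ k := by
        rw [← eS]; field_simp
      have g2 : (2 * (2 : ℝ) ^ (i / 2 + t₀) + 1) / 2 ^ (i + t₀) =
          (2 * (2 : ℝ) ^ (i / 2 + t₀) + 1) * 2 ^ (k - (i + t₀)) / 2 ^ k := by
        rw [← el]; field_simp
      rw [g1, g2]
      ring
    have f2 : Real.sqrt (((2 ^ (k - s) : ℕ) : ℝ) ^ 2 / ε) =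
        2 ^ (i / 8 + 2 * t₀) * ((2 : ℝ) ^ (k - (i + t₀))) ^ 2 := by
      have g1 : (((2 ^ (k - s) : ℕ) : ℝ) ^ 2 / ε) = (2 ^ (k - s) * 2 ^ k / 2 ^ i) ^ 2 := by
        rw [hεe, e4 k]
        push_cast
        field_simp
      have g2 : (2 : ℝ) ^ (k - s) * 2 ^ k =
          (2 ^ (i / 8 + 2 * t₀) * ((2 : ℝ) ^ (k - (i + t₀))) ^ 2) * 2 ^ i := by
        rw [← pow_mul, ← pow_add, ← pow_add, ← pow_add]
        congr 1
        omega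
      rw [g1, Real.sqrt_sq (by positivity), g2]
      field_simp
    have f3 : (i : ℝ) * Real.sqrt (((2 ^ (k - s) : ℕ) : ℝ) ^ 2 / ε) *
        (9 / ((((2 ^ (i / 2 + t₀) : ℕ) : ℝ) + 1) * (c₀ * ((2 : ℝ) ^ (k - (i + t₀))) ^ 2))) =
        (i : ℝ) * 2 ^ (i / 8 + 2 * t₀) * (9 / ((2 ^ (i / 2 + t₀) + 1) * c₀)) := by
      rw [f2]
      push_cast
      field_simp
    rw [f1, f3]
  have hn2 : (((2 ^ k : ℕ) : ℝ) ^ 2 / ε) = 4 ^ k * 4 ^ k / 4 ^ i := by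
    rw [hεe, e4 k, e4 i]
    push_cast
    field_simp
  have hFK := hcore.trans (mul_le_mul_of_nonneg_right
    (mul_le_mul_of_nonneg_right hcoef (by positivity)) hZ.le)
  rw [hn2] at hFK
  have hfin : exF b (2 ^ i) k (fun h => pr φ h ^ 2) - exD b (2 ^ i) k (fun h => pr φ h ^ 2) ≤
      R / 4 ^ i := by
    refine he3.trans ?_
    rw [div_le_iff₀ hZ]
    refine (mul_le_mul_of_nonneg_left hFK (by positivity)).trans (le_of_eq ?_)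
    field_simp
  rw [hR] at hfin
  linarith

/-- **Row IH.** -/
theorem ih {b : ℝ} (hb : 0 ≤ b) (hF : IVAR b → FAT b hb) : IH b :=
  fun h1 h2 => ih_of_fat hb (hF h1) h2

end Vale.Agent.P159.TM.H179
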