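import Vale.Agent.P159.TM.H60.Clus
import Vale.Agent.P159.TM.H504.Geo
import Vale.Agent.P159.TM.Spec.I

/-!
P159, T1, row IH: geometry of the free box. A connected set of open edges of the free box which
joins `u` to the ring meets many cells; for each of them it contains a path in the `3 × 3` block
around the cell, of diameter the side of the cell; the Dirichlet inequality for the block.
-/

open Finset

set_option linter.unusedSectionVars false

namespace Vale.Agent.P159.TM.H179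

open Vale.Agent.P159.TM.H60 Vale.Agent.P159.TM.H504 Vale.Agent.P159.TM.SpecI

variable {n : ℕ} [NeZero n]

/-- start of an edge -/
def src (e : V n × Bool) : V n := e.1

/-- first integer coordinate -/
def px (x : V n) : ℤ := (x.1.val : ℤ)

/-- second integer coordinate -/
def py (x : V n) : ℤ := (x.2.val : ℤ)

/-- sup distance to the ring -/
def rho (x : V n) : ℤ := min (min (px x) (n - 1 - px x)) (min (py x) (n - 1 - py x))

lemma px_nonneg (x : V n) : 0 ≤ px x := Int.natCast_nonneg _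

lemma py_nonneg (x : V n) : 0 ≤ py x := Int.natCast_nonneg _

lemma px_lt (x : V n) : px x < n := by
  unfold px
  exact_mod_cast ZMod.val_lt x.1

lemma py_lt (x : V n) : py x < n := by
  unfold py
  exact_mod_cast ZMod.val_lt x.2

lemma val_add_one {a : ZMod n} (h : a.val + 1 < n) : (a + 1).val = a.val + 1 := by
  rw [ZMod.val_add, ZMod.val_one_eq_one_mod, Nat.add_mod_mod, Nat.mod_eq_of_lt h]

lemma mem_inn {e : V n × Bool} :
    e ∈ inn n ↔ if e.2 then e.1.2.val + 1 < n else e.1.1.val + 1 < n := by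
  unfold inn
  rw [mem_filter]
  exact ⟨fun h => h.2, fun h => ⟨mem_univ _, h⟩⟩

/-- coordinates of the end of an edge of the free box -/
lemma inn_step {e : V n × Bool} (he : e ∈ inn n) :
    (px (tgt e) = px e.1 + 1 ∧ py (tgt e) = py e.1) ∨
      (px (tgt e) = px e.1 ∧ py (tgt e) = py e.1 + 1) := by
  rw [mem_inn] at he
  obtain ⟨x, d⟩ := e
  cases d
  · left
    simp only [Bool.false_eq_true, if_false] at he
    unfold tgt px py
    simp only [Bool.false_eq_true, if_false]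
    rw [val_add_one he]
    push_cast
    exact ⟨rfl, trivial⟩
  · right
    simp only [if_true] at he
    unfold tgt px py
    simp only [if_true]
    rw [val_add_one he]
    push_cast
    exact ⟨trivial, rfl⟩

lemma adj_step {om : Finset (V n × Bool)} (hom : om ⊆ inn n) {x y : V n}
    (h : Adj src tgt om x y) : |px y - px x| ≤ 1 ∧ |py y - py x| ≤ 1 := by
  obtain ⟨e, he, h⟩ := h
  have h1 := inn_step (hom he)
  rcases h with ⟨rfl, rfl⟩ | ⟨rfl, rfl⟩
  · unfold src
    rcases h1 with ⟨h2, h3⟩ | ⟨h2, h3⟩ <;> rw [h2, h3] <;> constructor <;> simp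
  · unfold src
    rcases h1 with ⟨h2, h3⟩ | ⟨h2, h3⟩ <;> rw [h2, h3] <;> constructor <;> simp

lemma rho_nonneg (x : V n) : 0 ≤ rho x := by
  have h1 := px_nonneg x
  have h2 := py_nonneg x
  have h3 := px_lt x
  have h4 := py_lt x
  unfold rho
  omega

lemma rho_ring {x : V n} (hx : x ∈ ring n) : rho x = 0 := by
  have h1 := px_nonneg x
  have h2 := py_nonneg x
  have h3 := px_lt x
  have h4 := py_lt x
  unfold ring at hx
  rw [mem_filter] at hx
  have h5 := hx.2
  unfold rho px py at *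
  omega

/-- the distance to the ring changes by at most the sup distance -/
lemma rho_sub {x y : V n} {l : ℤ} (h1 : |px y - px x| ≤ l) (h2 : |py y - py x| ≤ l) :
    |rho y - rho x| ≤ l := by
  rw [abs_le] at *
  unfold rho
  omega

/-- a sequence of adjacent points -/
lemma conn_seq {om : Finset (V n × Bool)} {x y : V n} (h : Conn src tgt om x y) :
    ∃ (m : ℕ) (c : ℕ → V n), c 0 = x ∧ c m = y ∧ (∀ i < m, Adj src tgt om (c i) (c (i + 1))) ∧
      ∀ i ≤ m, Conn src tgt om x (c i) := by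
  unfold Conn at h
  induction h with
  | refl => exact ⟨0, fun _ => x, rfl, rfl, fun i hi => absurd hi (Nat.not_lt_zero _),
      fun _ _ => Conn.refl x⟩
  | @tail y z h1 h2 ih =>
    obtain ⟨m, c, c0, cm, hc, hr⟩ := ih
    refine ⟨m + 1, fun i => if i ≤ m then c i else z, by simp [c0], by simp, fun i hi => ?_,
      fun i hi => ?_⟩
    · by_cases h3 : i + 1 ≤ m
      · have h4 : i ≤ m := by omega
        simp only [if_pos h3, if_pos h4]
        exact hc i (by omega)
      · have h4 : i = m := by omega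
        subst h4
        simp only [if_neg h3, le_refl, if_true]
        rw [cm]
        exact h2
    · by_cases h3 : i ≤ m
      · simp only [if_pos h3]
        exact hr i h3
      · simp only [if_neg h3]
        exact Relation.ReflTransGen.tail h1 h2

/-- discrete intermediate values, first passage: before the passage the value is larger -/
lemma first_le (f : ℕ → ℤ) (m : ℕ) (hf : ∀ i < m, |f (i + 1) - f i| ≤ 1) {a : ℤ} (h0 : a ≤ f 0)
    (hm : f m ≤ a) : ∃ i ≤ m, f i = a ∧ ∀ j < i, a < f j := by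
  classical
  have hex : ∃ i, i ≤ m ∧ f i ≤ a := ⟨m, le_rfl, hm⟩
  obtain ⟨h1, h2⟩ := Nat.find_spec hex
  set i := Nat.find hex with hi
  have hlt : ∀ j < i, a < f j := by
    intro j hj
    by_contra hc
    exact Nat.find_min hex hj ⟨by omega, not_lt.1 hc⟩
  refine ⟨i, h1, ?_, hlt⟩
  rcases Nat.eq_zero_or_pos i with h3 | h3
  · rw [h3] at h2 ⊢
    omega
  · have h4 := hlt (i - 1) (by omega)
    have h5 := hf (i - 1) (by omega)
    rw [Nat.sub_add_cancel h3, abs_le] at h5
    omega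

/-- the cell of side `l` of a point -/
def cel (l : ℕ) (x : V n) : ℕ × ℕ := (x.1.val / l, x.2.val / l)

/-- interior cells: the `3 × 3` block is in the box -/
def Int3 (n l : ℕ) (β : ℕ × ℕ) : Prop := 1 ≤ β.1 ∧ β.1 + 2 ≤ n / l ∧ 1 ≤ β.2 ∧ β.2 + 2 ≤ n / l

lemma cel_px {l : ℕ} (hl : 1 ≤ l) (x : V n) :
    ((cel l x).1 * l : ℤ) ≤ px x ∧ px x < ((cel l x).1 + 1 : ℤ) * l := by
  unfold cel px
  simp only
  constructor
  · exact_mod_cast Nat.div_mul_le_self _ _
  · exact_mod_cast Nat.lt_mul_of_div_lt (Nat.lt_succ_self _) (by omega)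

lemma cel_py {l : ℕ} (hl : 1 ≤ l) (x : V n) :
    ((cel l x).2 * l : ℤ) ≤ py x ∧ py x < ((cel l x).2 + 1 : ℤ) * l := by
  unfold cel py
  simp only
  constructor
  · exact_mod_cast Nat.div_mul_le_self _ _
  · exact_mod_cast Nat.lt_mul_of_div_lt (Nat.lt_succ_self _) (by omega)

/-- points at distance `≥ l` from the ring are in interior cells -/
lemma int3_of_rho {l : ℕ} (hl : 1 ≤ l) (hn : l ∣ n) {x : V n} (h : (l : ℤ) ≤ rho x) :
    Int3 n l (cel l x) := by
  have h1 : l ≤ x.1.val ∧ x.1.val + l + 1 ≤ n ∧ l ≤ x.2.val ∧ x.2.val + l + 1 ≤ n := by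
    unfold rho px py at h
    omega
  obtain ⟨h2, h3, h4, h5⟩ := h1
  obtain ⟨q, rfl⟩ := hn
  have hq : l * q / l = q := Nat.mul_div_cancel_left q (by omega)
  have key : ∀ a : ℕ, a + l + 1 ≤ l * q → a / l + 2 ≤ q := by
    intro a ha
    have h6 : a / l * l ≤ a := Nat.div_mul_le_self _ _
    by_contra hc
    have h7 : q ≤ a / l + 1 := by omega
    have h8 : l * q ≤ l * (a / l + 1) := Nat.mul_le_mul_left l h7
    rw [Nat.mul_add, Nat.mul_one, Nat.mul_comm l (a / l)] at h8
    omega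
  unfold Int3 cel
  simp only
  rw [hq]
  exact ⟨(Nat.one_le_div_iff (by omega)).2 h2, key _ h3, (Nat.one_le_div_iff (by omega)).2 h4,
    key _ h5⟩

/-- points of interior cells are at distance `≥ l` from the ring -/
lemma rho_of_int3 {l : ℕ} (hl : 1 ≤ l) {x : V n} (h : Int3 n l (cel l x)) :
    (l : ℤ) ≤ rho x := by
  obtain ⟨h1, h2, h3, h4⟩ := h
  obtain ⟨a1, a2⟩ := cel_px hl x
  obtain ⟨b1, b2⟩ := cel_py hl x
  have hn : n / l * l ≤ n := Nat.div_mul_le_self _ _
  have e1 : (l : ℤ) ≤ (cel l x).1 * l := by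
    have : 1 * l ≤ (cel l x).1 * l := Nat.mul_le_mul_right l h1
    rw [one_mul] at this
    exact_mod_cast this
  have e2 : (l : ℤ) ≤ (cel l x).2 * l := by
    have : 1 * l ≤ (cel l x).2 * l := Nat.mul_le_mul_right l h3
    rw [one_mul] at this
    exact_mod_cast this
  have e3 : ((cel l x).1 + 1 : ℤ) * l + l ≤ n := by
    have : ((cel l x).1 + 2) * l ≤ n := (Nat.mul_le_mul_right l h2).trans hn
    have h5 : (((cel l x).1 + 2) * l : ℤ) ≤ n := by exact_mod_cast this
    linarith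
  have e4 : ((cel l x).2 + 1 : ℤ) * l + l ≤ n := by
    have : ((cel l x).2 + 2) * l ≤ n := (Nat.mul_le_mul_right l h4).trans hn
    have h5 : (((cel l x).2 + 2) * l : ℤ) ≤ n := by exact_mod_cast this
    linarith
  unfold rho
  omega

/-- two points of one cell are at sup distance `< l` -/
lemma cel_close {l : ℕ} (hl : 1 ≤ l) {x y : V n} (h : cel l x = cel l y) :
    |px y - px x| ≤ (l : ℤ) - 1 ∧ |py y - py x| ≤ (l : ℤ) - 1 := by
  obtain ⟨a1, a2⟩ := cel_px hl x
  obtain ⟨b1, b2⟩ := cel_py hl x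
  obtain ⟨c1, c2⟩ := cel_px hl y
  obtain ⟨d1, d2⟩ := cel_py hl y
  rw [← h] at c1 c2 d1 d2
  rw [add_mul, one_mul] at a2 b2 c2 d2
  rw [abs_le, abs_le]
  refine ⟨⟨?_, ?_⟩, ?_, ?_⟩ <;> linarith

/-- **Many cells.** A connected set from `u` to the ring, `u` at sup distance `≥ (2m+1) l` from the
ring, meets at least `m + 1` interior cells of side `l`. -/
theorem many_cells {om : Finset (V n × Bool)} (hom : om ⊆ inn n) {u v : V n}
    (h : Conn src tgt om u v) (hv : v ∈ ring n) {l m : ℕ} (hl : 1 ≤ l) (hn : l ∣ n)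
    (hu : ((2 * m + 1) * l : ℤ) ≤ rho u) :
    ∃ S : Finset (ℕ × ℕ), S.card = m + 1 ∧
      ∀ β ∈ S, Int3 n l β ∧ ∃ x, Conn src tgt om u x ∧ cel l x = β := by
  classical
  obtain ⟨M, c, c0, cM, hc, hr⟩ := conn_seq h
  have hstep : ∀ i < M, |rho (c (i + 1)) - rho (c i)| ≤ 1 := fun i hi =>
    rho_sub (adj_step hom (hc i hi)).1 (adj_step hom (hc i hi)).2
  have hpick : ∀ k : ℕ, ∃ x, k ≤ m → Conn src tgt om u x ∧ rho x = ((2 * k + 1) * l : ℤ) := by
    intro k
    by_cases hk : k ≤ m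
    · have h1 : ((2 * k + 1) * l : ℤ) ≤ rho (c 0) := by
        rw [c0]
        refine le_trans ?_ hu
        have : (k : ℤ) ≤ m := by exact_mod_cast hk
        have hl0 : (0 : ℤ) ≤ l := Int.natCast_nonneg _
        nlinarith
      have h2 : rho (c M) ≤ ((2 * k + 1) * l : ℤ) := by
        rw [cM, rho_ring hv]
        positivity
      obtain ⟨i, hi, h3, _⟩ := first_le (fun i => rho (c i)) M hstep h1 h2
      exact ⟨c i, fun _ => ⟨hr i hi, h3⟩⟩
    · exact ⟨u, fun h => absurd h hk⟩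
  choose X hX using hpick
  have hinj : Set.InjOn (fun k => cel l (X k)) (Finset.range (m + 1) : Set ℕ) := by
    intro k hk k' hk' he
    rw [Finset.coe_range, Set.mem_Iio] at hk hk'
    obtain ⟨a1, a2⟩ := cel_close hl he
    have h1 := rho_sub a1 a2
    rw [(hX k (by omega)).2, (hX k' (by omega)).2, abs_le] at h1
    have hl0 : (1 : ℤ) ≤ l := by exact_mod_cast hl
    by_contra hne
    rcases lt_or_gt_of_ne hne with h2 | h2
    · have h3 : (k : ℤ) + 1 ≤ k' := by exact_mod_cast h2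
      nlinarith [h1.1, h1.2]
    · have h3 : (k' : ℤ) + 1 ≤ k := by exact_mod_cast h2
      nlinarith [h1.1, h1.2]
  refine ⟨(Finset.range (m + 1)).image (fun k => cel l (X k)), ?_, ?_⟩
  · rw [Finset.card_image_of_injOn hinj, Finset.card_range]
  · intro β hβ
    rw [Finset.mem_image] at hβ
    obtain ⟨k, hk, rfl⟩ := hβ
    rw [Finset.mem_range] at hk
    have h1 := hX k (by omega)
    refine ⟨int3_of_rho hl hn ?_, X k, h1.1, rfl⟩
    rw [h1.2]
    have hl0 : (0 : ℤ) ≤ l := Int.natCast_nonneg _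
    have hk0 : (0 : ℤ) ≤ k := Int.natCast_nonneg _
    nlinarith

/-- **Path in the block.** From a point `x` connected to a point at sup distance `≥ l` there is a
sequence of connected points, with steps at most one, inside the `3 × 3` block of the cell of `x`,
which ends at sup distance `l` from `x`. -/
theorem path_block {om : Finset (V n × Bool)} (hom : om ⊆ inn n) {x y : V n}
    (h : Conn src tgt om x y) {l : ℕ} (hl : 1 ≤ l)
    (hd : (l : ℤ) ≤ |px y - px x| ∨ (l : ℤ) ≤ |py y - py x|) :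
    ∃ (m : ℕ) (c : ℕ → V n), c 0 = x ∧ (∀ i ≤ m, Conn src tgt om x (c i)) ∧
      (∀ i ≤ m, (px (c i), py (c i)) ∈
        Bx (((cel l x).1 - 1 : ℤ) * l) (((cel l x).2 - 1 : ℤ) * l) (3 * l)) ∧
      (∀ i < m, |px (c (i + 1)) - px (c i)| ≤ 1 ∧ |py (c (i + 1)) - py (c i)| ≤ 1) ∧
      ((l : ℤ) ≤ |px (c m) - px (c 0)| ∨ (l : ℤ) ≤ |py (c m) - py (c 0)|) := by
  obtain ⟨M, c, c0, cM, hc, hr⟩ := conn_seq h
  have hst : ∀ i < M, |px (c (i + 1)) - px (c i)| ≤ 1 ∧ |py (c (i + 1)) - py (c i)| ≤ 1 :=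
    fun i hi => adj_step hom (hc i hi)
  set f : ℕ → ℤ := fun i => -max |px (c i) - px x| |py (c i) - py x| with hf
  have hf1 : ∀ i < M, |f (i + 1) - f i| ≤ 1 := by
    intro i hi
    obtain ⟨h1, h2⟩ := hst i hi
    rw [hf]
    simp only
    rw [← neg_sub', abs_neg]
    refine (abs_max_sub_max_le_max _ _ _ _).trans (max_le ?_ ?_)
    · refine (abs_abs_sub_abs_le _ _).trans ?_
      rw [sub_sub_sub_cancel_right]
      exact h1
    · refine (abs_abs_sub_abs_le _ _).trans ?_
      rw [sub_sub_sub_cancel_right]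
      exact h2
  have h0 : -(l : ℤ) ≤ f 0 := by
    rw [hf]
    simp only [c0, sub_self, abs_zero, max_self, neg_zero]
    omega
  have hM : f M ≤ -(l : ℤ) := by
    rw [hf]
    simp only [cM]
    omega
  obtain ⟨m, hm, hm1, hm2⟩ := first_le f M hf1 h0 hM
  have hle : ∀ i ≤ m, |px (c i) - px x| ≤ l ∧ |py (c i) - py x| ≤ l := by
    intro i hi
    have : -(l : ℤ) ≤ f i := by
      rcases Nat.lt_or_eq_of_le hi with h1 | h1
      · exact (hm2 i h1).le
      · rw [h1, hm1]
    rw [hf] at this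
    simp only at this
    omega
  refine ⟨m, c, c0, fun i hi => hr i (hi.trans hm), fun i hi => ?_, fun i hi =>
    hst i (lt_of_lt_of_le hi hm), ?_⟩
  · obtain ⟨h1, h2⟩ := hle i hi
    obtain ⟨a1, a2⟩ := cel_px hl x
    obtain ⟨b1, b2⟩ := cel_py hl x
    rw [abs_le] at h1 h2
    rw [Bx, mem_product, mem_Ico, mem_Ico]
    push_cast
    rw [add_mul, one_mul] at a2 b2
    refine ⟨⟨?_, ?_⟩, ?_, ?_⟩ <;> simp only [sub_mul, one_mul] <;> linarith
  · rw [c0]
    rw [hf] at hm1
    simp only at hm1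
    rcases le_total |px (c m) - px x| |py (c m) - py x| with h1 | h1
    · right
      rw [max_eq_right h1] at hm1
      omega
    · left
      rw [max_eq_left h1] at hm1
      omega

/-- the `3 × 3` block around the cell `β` -/
def blk (n : ℕ) [NeZero n] (l : ℕ) (β : ℕ × ℕ) : Finset (V n) :=
  univ.filter fun y => (β.1 ≤ y.1.val / l + 1 ∧ y.1.val / l ≤ β.1 + 1) ∧
    (β.2 ≤ y.2.val / l + 1 ∧ y.2.val / l ≤ β.2 + 1)

/-- the point of the box with given integer coordinates -/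
def pt (z : ℤ × ℤ) : V n := ((z.1 : ZMod n), (z.2 : ZMod n))

lemma pt_px (y : V n) : pt (px y, py y) = y := by
  unfold pt px py
  ext <;> simp

lemma px_pt {z : ℤ × ℤ} (h0 : 0 ≤ z.1) (h1 : z.1 < n) : px (pt z : V n) = z.1 := by
  unfold px pt
  simp only
  rw [ZMod.val_intCast, Int.emod_eq_of_lt h0 h1]

lemma py_pt {z : ℤ × ℤ} (h0 : 0 ≤ z.2) (h1 : z.2 < n) : py (pt z : V n) = z.2 := by
  unfold py pt
  simp only
  rw [ZMod.val_intCast, Int.emod_eq_of_lt h0 h1]

/-- cell index of a coordinate in the block -/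
lemma div_iff {l a i : ℕ} (hl : 1 ≤ l) :
    (i ≤ a / l + 1 ∧ a / l ≤ i + 1) ↔
      ((i : ℤ) - 1) * l ≤ a ∧ (a : ℤ) < ((i : ℤ) - 1) * l + ((3 * l : ℕ) : ℤ) := by
  have h1 : a / l * l ≤ a := Nat.div_mul_le_self _ _
  have h2 : a < (a / l + 1) * l := Nat.lt_mul_of_div_lt (Nat.lt_succ_self _) (by omega)
  have h1' : ((a / l : ℕ) : ℤ) * l ≤ a := by exact_mod_cast h1
  have h2' : (a : ℤ) < (((a / l : ℕ) : ℤ) + 1) * l := by exact_mod_cast h2
  have hl' : (0 : ℤ) < l := by exact_mod_cast hl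
  push_cast
  constructor
  · rintro ⟨h3, h4⟩
    have h3' : (i : ℤ) ≤ ((a / l : ℕ) : ℤ) + 1 := by exact_mod_cast h3
    have h4' : ((a / l : ℕ) : ℤ) ≤ (i : ℤ) + 1 := by exact_mod_cast h4
    constructor <;> nlinarith
  · rintro ⟨h3, h4⟩
    constructor
    · by_contra hc
      have h5 : ((a / l : ℕ) : ℤ) + 2 ≤ i := by
        have : a / l + 2 ≤ i := by omega
        exact_mod_cast this
      nlinarith
    · by_contra hc
      have h5 : (i : ℤ) + 2 ≤ ((a / l : ℕ) : ℤ) := by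
        have : i + 2 ≤ a / l := by omega
        exact_mod_cast this
      nlinarith

lemma mem_blk {l : ℕ} (hl : 1 ≤ l) {β : ℕ × ℕ} {y : V n} :
    y ∈ blk n l β ↔ (px y, py y) ∈ Bx (((β.1 : ℤ) - 1) * l) (((β.2 : ℤ) - 1) * l) (3 * l) := by
  unfold blk
  rw [mem_filter, div_iff hl, div_iff hl, Bx, mem_product, mem_Ico, mem_Ico]
  unfold px py
  exact ⟨fun h => h.2, fun h => ⟨mem_univ _, h⟩⟩

/-- bounds of the coordinates in the block of an interior cell -/
lemma int3_bd {l : ℕ} {β : ℕ × ℕ} (h : Int3 n l β) :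
    0 ≤ ((β.1 : ℤ) - 1) * l ∧ ((β.1 : ℤ) - 1) * l + ((3 * l : ℕ) : ℤ) ≤ n ∧
      0 ≤ ((β.2 : ℤ) - 1) * l ∧ ((β.2 : ℤ) - 1) * l + ((3 * l : ℕ) : ℤ) ≤ n := by
  obtain ⟨h1, h2, h3, h4⟩ := h
  have hn : n / l * l ≤ n := Nat.div_mul_le_self _ _
  have e1 : (β.1 + 2) * l ≤ n := (Nat.mul_le_mul_right l h2).trans hn
  have e2 : (β.2 + 2) * l ≤ n := (Nat.mul_le_mul_right l h4).trans hn
  have e1' : ((β.1 : ℤ) + 2) * l ≤ n := by exact_mod_cast e1
  have e2' : ((β.2 : ℤ) + 2) * l ≤ n := by exact_mod_cast e2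
  have h1' : (1 : ℤ) ≤ β.1 := by exact_mod_cast h1
  have h3' : (1 : ℤ) ≤ β.2 := by exact_mod_cast h3
  have hl : (0 : ℤ) ≤ l := Int.natCast_nonneg _
  push_cast
  refine ⟨mul_nonneg (by linarith) hl, by linarith, mul_nonneg (by linarith) hl, by linarith⟩

/-- sum over the block in integer coordinates -/
lemma sum_blk {l : ℕ} (hl : 1 ≤ l) {β : ℕ × ℕ} (h : Int3 n l β) (φ : V n → ℝ) :
    ∑ z ∈ Bx (((β.1 : ℤ) - 1) * l) (((β.2 : ℤ) - 1) * l) (3 * l), φ (pt z) =
      ∑ y ∈ blk n l β, φ y := by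
  obtain ⟨b1, b2, b3, b4⟩ := int3_bd h
  symm
  refine Finset.sum_nbij' (fun y => (px y, py y)) pt (fun y hy => (mem_blk hl).1 hy) ?_
    (fun y _ => pt_px y) ?_ (fun y _ => by rw [pt_px])
  · intro z hz
    have hz' := hz
    rw [Bx, mem_product, mem_Ico, mem_Ico] at hz'
    rw [mem_blk hl, px_pt (by omega) (by omega), py_pt (by omega) (by omega)]
    exact hz
  · intro z hz
    rw [Bx, mem_product, mem_Ico, mem_Ico] at hz
    rw [px_pt (by omega) (by omega), py_pt (by omega) (by omega)]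

lemma pt_inj {z z' : ℤ × ℤ} (h0 : 0 ≤ z.1 ∧ z.1 < n ∧ 0 ≤ z.2 ∧ z.2 < n)
    (h1 : 0 ≤ z'.1 ∧ z'.1 < n ∧ 0 ≤ z'.2 ∧ z'.2 < n) (h : (pt z : V n) = pt z') : z = z' := by
  have e1 := congrArg px h
  have e2 := congrArg py h
  rw [px_pt h0.1 h0.2.1, px_pt h1.1 h1.2.1] at e1
  rw [py_pt h0.2.2.1 h0.2.2.2, py_pt h1.2.2.1 h1.2.2.2] at e2
  exact Prod.ext e1 e2

/-- the energy in the block is at most the energy of the free box -/
lemma en_le {l : ℕ} {β : ℕ × ℕ} (h : Int3 n l β) (φ : V n → ℝ) :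
    En (((β.1 : ℤ) - 1) * l) (((β.2 : ℤ) - 1) * l) (3 * l) (fun z => φ (pt z)) ≤
      ∑ e ∈ inn n, (φ (tgt e) - φ e.1) ^ 2 := by
  classical
  obtain ⟨b1, b2, b3, b4⟩ := int3_bd h
  set p : ℤ := ((β.1 : ℤ) - 1) * l with hp
  set q : ℤ := ((β.2 : ℤ) - 1) * l with hq
  set N : ℕ := 3 * l with hN
  set F : V n × Bool → ℝ := fun e => (φ (tgt e) - φ e.1) ^ 2 with hF
  have hF0 : ∀ e, 0 ≤ F e := fun e => sq_nonneg _
  rw [← Finset.sum_filter_add_sum_filter_not (inn n) (fun e => e.2 = false)]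
  unfold En
  refine add_le_add ?_ ?_
  · rw [← Finset.sum_product']
    set A := Ico p (p + N - 1) ×ˢ Ico q (q + N) with hA
    have hb : ∀ z ∈ A, 0 ≤ z.1 ∧ z.1 + 1 < n ∧ 0 ≤ z.2 ∧ z.2 < n := by
      intro z hz
      rw [hA, mem_product, mem_Ico, mem_Ico] at hz
      omega
    have e1 : ∀ z ∈ A, ((fun z : ℤ × ℤ => φ (pt z)) (z.1 + 1, z.2) -
        (fun z : ℤ × ℤ => φ (pt z)) (z.1, z.2)) ^ 2 = F ((pt z : V n), false) := by
      intro z _
      rw [hF]
      simp only [pt, tgt, Bool.false_eq_true, if_false, Int.cast_add, Int.cast_one]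
    rw [Finset.sum_congr rfl e1]
    have hinj : Set.InjOn (fun z : ℤ × ℤ => ((pt z : V n), false)) (A : Set (ℤ × ℤ)) := by
      intro z hz z' hz' he
      have h1 := hb z hz
      have h2 := hb z' hz'
      exact pt_inj (by omega) (by omega) (Prod.ext_iff.1 he).1
    rw [← Finset.sum_image (f := F) (g := fun z : ℤ × ℤ => ((pt z : V n), false)) hinj]
    refine Finset.sum_le_sum_of_subset_of_nonneg ?_ fun e _ _ => hF0 e
    intro e he
    rw [mem_image] at he
    obtain ⟨z, hz, rfl⟩ := he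
    have h1 := hb z hz
    rw [mem_filter, mem_inn]
    refine ⟨?_, rfl⟩
    simp only [Bool.false_eq_true, if_false]
    have h2 := px_pt (n := n) (z := z) h1.1 (by omega)
    unfold px at h2
    omega
  · rw [← Finset.sum_product']
    set A := Ico p (p + N) ×ˢ Ico q (q + N - 1) with hA
    have hb : ∀ z ∈ A, 0 ≤ z.1 ∧ z.1 < n ∧ 0 ≤ z.2 ∧ z.2 + 1 < n := by
      intro z hz
      rw [hA, mem_product, mem_Ico, mem_Ico] at hz
      omega
    have e1 : ∀ z ∈ A, ((fun z : ℤ × ℤ => φ (pt z)) (z.1, z.2 + 1) -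
        (fun z : ℤ × ℤ => φ (pt z)) (z.1, z.2)) ^ 2 = F ((pt z : V n), true) := by
      intro z _
      rw [hF]
      simp only [pt, tgt, if_true, Int.cast_add, Int.cast_one]
    rw [Finset.sum_congr rfl e1]
    have hinj : Set.InjOn (fun z : ℤ × ℤ => ((pt z : V n), true)) (A : Set (ℤ × ℤ)) := by
      intro z hz z' hz' he
      have h1 := hb z hz
      have h2 := hb z' hz'
      exact pt_inj (by omega) (by omega) (Prod.ext_iff.1 he).1
    rw [← Finset.sum_image (f := F) (g := fun z : ℤ × ℤ => ((pt z : V n), true)) hinj]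
    refine Finset.sum_le_sum_of_subset_of_nonneg ?_ fun e _ _ => hF0 e
    intro e he
    rw [mem_image] at he
    obtain ⟨z, hz, rfl⟩ := he
    have h1 := hb z hz
    rw [mem_filter, mem_inn]
    refine ⟨?_, by simp⟩
    simp only [if_true]
    have h2 := py_pt (n := n) (z := z) h1.2.2.1 (by omega)
    unfold py at h2
    omega

/-- **Dirichlet inequality in the block.** `φ = 0` on the cluster of `u`, which meets the ring and
the interior cell `β`: the square of the sum of `φ` over the `3 × 3` block of `β` is at most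
`648 l⁴` times the energy of `φ` in the free box. -/
theorem dirichlet_block {om : Finset (V n × Bool)} (hom : om ⊆ inn n) {u v x : V n}
    (hv : Conn src tgt om u v) (hvr : v ∈ ring n) {l : ℕ} (hl : 1 ≤ l)
    (hx : Conn src tgt om u x) (hi : Int3 n l (cel l x)) {φ : V n → ℝ}
    (hφ : ∀ y, Conn src tgt om u y → φ y = 0) :
    (∑ y ∈ blk n l (cel l x), φ y) ^ 2 ≤
      648 * (l : ℝ) ^ 4 * ∑ e ∈ inn n, (φ (tgt e) - φ e.1) ^ 2 := by
  have hxv : Conn src tgt om x v := hx.symm.trans hv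
  have h1 := rho_of_int3 hl hi
  have h2 := rho_ring hvr
  have hd : (l : ℤ) ≤ |px v - px x| ∨ (l : ℤ) ≤ |py v - py x| := by
    by_contra hc
    have hc1 : |px v - px x| ≤ (l : ℤ) - 1 := by
      have := fun h => hc (Or.inl h)
      omega
    have hc2 : |py v - py x| ≤ (l : ℤ) - 1 := by
      have := fun h => hc (Or.inr h)
      omega
    have h3 := rho_sub hc1 hc2
    rw [h2, abs_le] at h3
    omega
  obtain ⟨m, c, c0, h3, h4, h5, h6⟩ := path_block hom hxv hl hd
  have h7 := sum_sq_le_of_path (g := fun z => φ (pt z)) (ℓ := l) (N := 3 * l)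
    (p := (((cel l x).1 : ℤ) - 1) * l) (q := (((cel l x).2 : ℤ) - 1) * l) hl
    (fun i => (px (c i), py (c i))) m
    (fun i hi' => ⟨h4 i hi', by
      rw [pt_px]
      exact hφ _ (hx.trans (h3 i hi'))⟩) h5 h6
  rw [sum_blk hl hi] at h7
  refine h7.trans ?_
  have h8 := en_le hi φ
  have hl0 : (0 : ℝ) < l := by exact_mod_cast hl
  have e1 : 2 * (((3 * l : ℕ) : ℝ)) ^ 4 * (((3 * l : ℕ) : ℝ) / l + 1) = 648 * (l : ℝ) ^ 4 := by
    push_cast
    rw [mul_div_assoc, div_self hl0.ne']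
    ring
  rw [e1]
  exact mul_le_mul_of_nonneg_left h8 (by positivity)

/-- every point is in at most nine blocks -/
theorem overlap {l : ℕ} (S : Finset (ℕ × ℕ)) (y : V n) :
    (S.filter fun β => y ∈ blk n l β).card ≤ 9 := by
  classical
  set i := y.1.val / l with hi
  set j := y.2.val / l with hj
  have h1 : (S.filter fun β => y ∈ blk n l β) ⊆ Icc (i - 1) (i + 1) ×ˢ Icc (j - 1) (j + 1) := by
    intro β hβ
    rw [mem_filter] at hβ
    have h2 := hβ.2
    unfold blk at h2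
    rw [mem_filter] at h2
    rw [mem_product, mem_Icc, mem_Icc]
    omega
  refine (card_le_card h1).trans ?_
  rw [card_product, Nat.card_Icc, Nat.card_Icc]
  have a1 : i + 1 + 1 - (i - 1) ≤ 3 := by omega
  have a2 : j + 1 + 1 - (j - 1) ≤ 3 := by omega
  calc _ ≤ 3 * 3 := Nat.mul_le_mul a1 a2
    _ = 9 := rfl

end Vale.Agent.P159.TM.H179
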