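import Vale.Agent.P159.TM.H179.BoxGeo

/-!
P159, T1, row IH: cells of the box and the averages `avg` of the interface; the number of points
near the ring.
-/

open Finset

set_option linter.unusedSectionVars false

namespace Vale.Agent.P159.TM.H179

open Vale.Agent.P159.TM.SpecI

variable {n : ℕ} [NeZero n]

/-- the points of the cell `β` of side `l` -/
def cells (n : ℕ) [NeZero n] (l : ℕ) (β : ℕ × ℕ) : Finset (V n) :=
  univ.filter fun y => cel l y = β

lemma mem_cells {l : ℕ} {β : ℕ × ℕ} {y : V n} : y ∈ cells n l β ↔ cel l y = β := by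
  unfold cells
  rw [mem_filter]
  exact ⟨fun h => h.2, fun h => ⟨mem_univ _, h⟩⟩

lemma div_lt {l : ℕ} (hl : 1 ≤ l) (hn : l ∣ n) (a : ZMod n) : a.val / l < n / l := by
  obtain ⟨q, hq⟩ := hn
  have h1 := ZMod.val_lt a
  rw [Nat.div_lt_iff_lt_mul (by omega)]
  have h2 : n / l * l = n := Nat.div_mul_cancel ⟨q, hq⟩
  rw [h2]
  exact h1

/-- the cells are a partition of the box -/
theorem sum_cells {l : ℕ} (hl : 1 ≤ l) (hn : l ∣ n) (f : V n → ℝ) :
    ∑ β ∈ range (n / l) ×ˢ range (n / l), ∑ y ∈ cells n l β, f y = ∑ y, f y := by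
  unfold cells
  exact Finset.sum_fiberwise_of_maps_to (fun y _ => by
    rw [mem_product, mem_range, mem_range]
    exact ⟨div_lt hl hn y.1, div_lt hl hn y.2⟩) f

/-- sum over a cell as a double sum -/
theorem sum_cell {l : ℕ} (hl : 1 ≤ l) {β : ℕ × ℕ} (h1 : β.1 < n / l) (h2 : β.2 < n / l)
    (f : V n → ℝ) :
    ∑ y ∈ cells n l β, f y = ∑ i ∈ range l, ∑ j ∈ range l,
      f (((β.1 * l + i : ℕ) : ZMod n), ((β.2 * l + j : ℕ) : ZMod n)) := by
  classical
  have hb : ∀ a i : ℕ, a < n / l → i < l → a * l + i < n := by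
    intro a i ha hi
    have h3 : (a + 1) * l ≤ n := (Nat.mul_le_mul_right l ha).trans (Nat.div_mul_le_self _ _)
    rw [add_mul, one_mul] at h3
    omega
  have hd : ∀ a i : ℕ, i < l → (a * l + i) / l = a := by
    intro a i hi
    rw [Nat.add_comm, Nat.add_mul_div_right _ _ (by omega), Nat.div_eq_of_lt hi, zero_add]
  rw [← Finset.sum_product']
  symm
  refine Finset.sum_nbij' (fun z : ℕ × ℕ => ((((β.1 * l + z.1 : ℕ) : ZMod n),
    ((β.2 * l + z.2 : ℕ) : ZMod n)) : V n)) (fun y => (y.1.val % l, y.2.val % l)) ?_ ?_ ?_ ?_ ?_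
  · intro z hz
    rw [mem_product, mem_range, mem_range] at hz
    rw [mem_cells]
    unfold cel
    simp only
    rw [ZMod.val_cast_of_lt (hb _ _ h1 hz.1), ZMod.val_cast_of_lt (hb _ _ h2 hz.2),
      hd _ _ hz.1, hd _ _ hz.2]
  · intro y _
    rw [mem_product, mem_range, mem_range]
    exact ⟨Nat.mod_lt _ (by omega), Nat.mod_lt _ (by omega)⟩
  · intro z hz
    rw [mem_product, mem_range, mem_range] at hz
    simp only
    rw [ZMod.val_cast_of_lt (hb _ _ h1 hz.1), ZMod.val_cast_of_lt (hb _ _ h2 hz.2)]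
    have e : ∀ a i : ℕ, i < l → (a * l + i) % l = i := by
      intro a i hi
      rw [Nat.add_comm, Nat.add_mul_mod_self_right, Nat.mod_eq_of_lt hi]
    rw [e _ _ hz.1, e _ _ hz.2]
  · intro y hy
    rw [mem_cells] at hy
    unfold cel at hy
    have e1 := (Prod.ext_iff.1 hy).1
    have e2 := (Prod.ext_iff.1 hy).2
    simp only at e1 e2
    have h3 : β.1 * l + y.1.val % l = y.1.val := by
      rw [← e1, Nat.mul_comm]
      exact Nat.div_add_mod _ _
    have h4 : β.2 * l + y.2.val % l = y.2.val := by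
      rw [← e2, Nat.mul_comm]
      exact Nat.div_add_mod _ _
    simp only
    rw [h3, h4]
    ext <;> simp
  · intro z _
    rfl

/-- the averages of the interface -/
theorem avg_eq {l : ℕ} (hl : 1 ≤ l) {β : ℕ × ℕ} (h1 : β.1 < n / l) (h2 : β.2 < n / l)
    (h : V n → ℤ) : avg l β h * (l : ℝ) ^ 2 = ∑ y ∈ cells n l β, (h y : ℝ) := by
  have hl0 : (0 : ℝ) < l := by exact_mod_cast hl
  rw [sum_cell hl h1 h2 (fun y => (h y : ℝ))]
  unfold avg
  rw [div_mul_cancel₀ _ (by positivity)]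

theorem card_cells {l : ℕ} (hl : 1 ≤ l) {β : ℕ × ℕ} (h1 : β.1 < n / l) (h2 : β.2 < n / l) :
    (cells n l β).card = l ^ 2 := by
  have h3 := sum_cell hl h1 h2 (fun _ : V n => (1 : ℝ))
  simp only [sum_const, card_range, nsmul_eq_mul, mul_one] at h3
  have h4 : ((cells n l β).card : ℝ) = ((l ^ 2 : ℕ) : ℝ) := by
    rw [h3]
    push_cast
    ring
  exact_mod_cast h4

/-- the nine cells of a block -/
def nine (β : ℕ × ℕ) : Finset (ℕ × ℕ) :=
  Icc (β.1 - 1) (β.1 + 1) ×ˢ Icc (β.2 - 1) (β.2 + 1)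

lemma card_nine {β : ℕ × ℕ} (h1 : 1 ≤ β.1) (h2 : 1 ≤ β.2) : (nine β).card = 9 := by
  unfold nine
  rw [card_product, Nat.card_Icc, Nat.card_Icc]
  have e1 : β.1 + 1 + 1 - (β.1 - 1) = 3 := by omega
  have e2 : β.2 + 1 + 1 - (β.2 - 1) = 3 := by omega
  rw [e1, e2]

lemma nine_lt {l : ℕ} {β : ℕ × ℕ} (h : Int3 n l β) {γ : ℕ × ℕ} (hγ : γ ∈ nine β) :
    γ.1 < n / l ∧ γ.2 < n / l := by
  unfold nine at hγ
  rw [mem_product, mem_Icc, mem_Icc] at hγ
  obtain ⟨h1, h2, h3, h4⟩ := h
  omega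

/-- a block is the union of its nine cells -/
theorem sum_blk_cells {l : ℕ} {β : ℕ × ℕ} (f : V n → ℝ) :
    ∑ γ ∈ nine β, ∑ y ∈ cells n l γ, f y = ∑ y ∈ blk n l β, f y := by
  classical
  have h1 : ∀ y ∈ blk n l β, cel l y ∈ nine β := by
    intro y hy
    unfold blk at hy
    rw [mem_filter] at hy
    unfold nine cel
    rw [mem_product, mem_Icc, mem_Icc]
    simp only
    have h2 := hy.2
    generalize y.1.val / l = a at h2 ⊢
    generalize y.2.val / l = b at h2 ⊢
    omega
  rw [← Finset.sum_fiberwise_of_maps_to h1 f]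
  refine Finset.sum_congr rfl fun γ hγ => ?_
  refine Finset.sum_congr ?_ fun _ _ => rfl
  ext y
  rw [mem_cells, mem_filter]
  constructor
  · intro h2
    refine ⟨?_, h2⟩
    unfold blk
    rw [mem_filter]
    refine ⟨mem_univ _, ?_⟩
    unfold nine at hγ
    rw [mem_product, mem_Icc, mem_Icc, ← h2] at hγ
    unfold cel at hγ
    simp only at hγ
    generalize y.1.val / l = a at hγ ⊢
    generalize y.2.val / l = b at hγ ⊢
    omega
  · exact fun h2 => h2.2

theorem card_blk {l : ℕ} (hl : 1 ≤ l) {β : ℕ × ℕ} (h : Int3 n l β) :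
    (blk n l β).card = 9 * l ^ 2 := by
  have h1 := sum_blk_cells (l := l) (β := β) (fun _ : V n => (1 : ℝ))
  simp only [sum_const, nsmul_eq_mul, mul_one] at h1
  have h2 : ∑ γ ∈ nine β, ((cells n l γ).card : ℝ) = 9 * (l : ℝ) ^ 2 := by
    rw [Finset.sum_congr rfl fun γ hγ => by
      rw [card_cells hl (nine_lt h hγ).1 (nine_lt h hγ).2]]
    rw [sum_const, card_nine h.1 h.2.2.1, nsmul_eq_mul]
    push_cast
    ring
  rw [h2] at h1
  have h3 : ((blk n l β).card : ℝ) = ((9 * l ^ 2 : ℕ) : ℝ) := by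
    rw [← h1]
    push_cast
    ring
  exact_mod_cast h3

/-- the sum over a block in terms of the averages -/
theorem blk_avg {l : ℕ} (hl : 1 ≤ l) {β : ℕ × ℕ} (h : Int3 n l β) (g : V n → ℤ) :
    ∑ y ∈ blk n l β, (g y : ℝ) = (l : ℝ) ^ 2 * ∑ γ ∈ nine β, avg l γ g := by
  rw [← sum_blk_cells (fun y => (g y : ℝ)), mul_sum]
  refine Finset.sum_congr rfl fun γ hγ => ?_
  rw [mul_comm, avg_eq hl (nine_lt h hγ).1 (nine_lt h hγ).2]

/-- the number of points near the ring -/
theorem card_near (K : ℕ) : (univ.filter fun x : V n => rho x < K).card ≤ 4 * K * n := by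
  classical
  have hN : ∀ P : ZMod n → Prop, ∀ [DecidablePred P], (∀ a, P a → a.val < K ∨ n ≤ a.val + K) →
      (univ.filter P).card ≤ 2 * K := by
    intro P _ hP
    have h1 : ((univ.filter P).image (fun a : ZMod n => a.val)) ⊆
        range K ∪ Ico (n - K) n := by
      intro m hm
      rw [mem_image] at hm
      obtain ⟨a, ha, rfl⟩ := hm
      rw [mem_filter] at ha
      have h2 := hP a ha.2
      have h3 := ZMod.val_lt a
      rw [mem_union, mem_range, mem_Ico]
      omega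
    rw [← card_image_of_injective (univ.filter P) (ZMod.val_injective n)]
    refine (card_le_card h1).trans ((card_union_le _ _).trans ?_)
    rw [card_range, Nat.card_Ico]
    omega
  have h1 : (univ.filter fun x : V n => rho x < K) ⊆
      ((univ.filter fun a : ZMod n => a.val < K ∨ n ≤ a.val + K) ×ˢ univ) ∪
        (univ ×ˢ (univ.filter fun a : ZMod n => a.val < K ∨ n ≤ a.val + K)) := by
    intro x hx
    rw [mem_filter] at hx
    rw [mem_union, mem_product, mem_product, mem_filter, mem_filter]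
    have h2 := hx.2
    unfold rho px py at h2
    have h3 : (x.1.val < K ∨ n ≤ x.1.val + K) ∨ (x.2.val < K ∨ n ≤ x.2.val + K) := by omega
    rcases h3 with h3 | h3
    · exact Or.inl ⟨⟨mem_univ _, h3⟩, mem_univ _⟩
    · exact Or.inr ⟨mem_univ _, ⟨mem_univ _, h3⟩⟩
  refine (card_le_card h1).trans ((card_union_le _ _).trans ?_)
  rw [card_product, card_product, card_univ, ZMod.card]
  have h2 := hN (fun a => a.val < K ∨ n ≤ a.val + K) fun a ha => ha
  calc _ ≤ 2 * K * n + n * (2 * K) :=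
        Nat.add_le_add (Nat.mul_le_mul_right n h2) (Nat.mul_le_mul_left n h2)
    _ = 4 * K * n := by ring

end Vale.Agent.P159.TM.H179
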