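import Vale.Agent.P159.TM.H179.Dict

/-!
P159, T1, row IH: the comparison of the free box with the ring box with explicit error terms, from
the abstract estimate of 519, the maximality of the block variances and the fatness.
-/

open Finset
open scoped ENNReal

set_option linter.unusedSectionVars false

namespace Vale.Agent.P159.TM.H179

open Vale.Agent.P159.TM.H60 Vale.Agent.P159.TM.SpecI Vale.Agent.P159.TM.H519

variable {n : ℕ} [NeZero n]

/-- indicator function -/
def ind (c : Finset (V n)) (x : V n) : ℝ := if x ∈ c then 1 else 0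

lemma pr_ind (c : Finset (V n)) (h : V n → ℤ) : pr (ind c) h = ∑ x ∈ c, (h x : ℝ) := by
  unfold pr ind
  simp only [ite_mul, one_mul, zero_mul, Finset.sum_ite_mem, Finset.univ_inter]

lemma sum_ind_sq (c : Finset (V n)) (ε : ℝ) : ∑ x, ind c x ^ 2 / ε = (c.card : ℝ) / ε := by
  rw [← sum_div]
  congr 1
  unfold ind
  simp only [ite_pow, one_pow, ne_eq, OfNat.ofNat_ne_zero, not_false_eq_true, zero_pow,
    Finset.sum_ite_mem, Finset.univ_inter, Finset.sum_const, nsmul_eq_mul, mul_one]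

lemma G2_summ {b : ℝ} (hb : 0 ≤ b) {ε : ℝ} (hε : 0 < ε) (u v : V n) :
    Summable fun x => (sg n hb ε).tot x * ((sg n hb ε).D x u * (sg n hb ε).D x v) := by
  have h1 := (em_sg hb hε).tot (F := fun _ x => (sg n hb ε).D x u * (sg n hb ε).D x v)
    ((Gr.Df u).mul (Gr.Df v)) ∅
  refine Summable.of_abs (h1.congr fun x => ?_)
  rw [abs_mul ((sg n hb ε).tot x), abs_of_nonneg ((sg n hb ε).tot_nonneg x)]

lemma G2_sum {b : ℝ} (hb : 0 ≤ b) {ε : ℝ} (hε : 0 < ε) (c : Finset (V n)) :
    ∑ u ∈ c, ∑ v ∈ c, G2 (sg n hb ε) u v = SB n b ε ∅ (fun h => pr (ind c) h ^ 2) := by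
  rw [← sum_tot hb]
  unfold G2
  have h1 : ∀ u ∈ c, ∑ v ∈ c, ∑' x, (sg n hb ε).tot x *
      ((sg n hb ε).D x u * (sg n hb ε).D x v) =
      ∑' x, ∑ v ∈ c, (sg n hb ε).tot x * ((sg n hb ε).D x u * (sg n hb ε).D x v) :=
    fun u _ => (Summable.tsum_finsetSum fun v _ => G2_summ hb hε u v).symm
  rw [Finset.sum_congr rfl h1, ← Summable.tsum_finsetSum fun u _ =>
    summable_sum fun v _ => G2_summ hb hε u v]
  refine tsum_congr fun x => ?_
  rw [pr_ind, pow_two, Finset.sum_mul_sum, mul_sum]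
  refine Finset.sum_congr rfl fun u _ => ?_
  rw [mul_sum]
  rfl

/-- index of the cell of side `S` -/
def ci {S : ℕ} (hS : 1 ≤ S) (hn : S ∣ n) (u : V n) : Fin (n / S) × Fin (n / S) :=
  (⟨u.1.val / S, div_lt hS hn u.1⟩, ⟨u.2.val / S, div_lt hS hn u.2⟩)

lemma ci_filter {S : ℕ} (hS : 1 ≤ S) (hn : S ∣ n) (i : Fin (n / S) × Fin (n / S)) :
    univ.filter (fun u : V n => ci hS hn u = i) = cells n S (i.1.val, i.2.val) := by
  ext u
  rw [mem_filter, mem_cells]
  unfold ci cel
  constructor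
  · rintro ⟨_, h⟩
    rw [← h]
  · intro h
    refine ⟨mem_univ _, ?_⟩
    have h1 := (Prod.ext_iff.1 h).1
    have h2 := (Prod.ext_iff.1 h).2
    exact Prod.ext (Fin.ext h1) (Fin.ext h2)

lemma card_ci {S : ℕ} (hS : 1 ≤ S) (hn : S ∣ n) (i : Fin (n / S) × Fin (n / S)) :
    ((univ.filter (fun u : V n => ci hS hn u = i)).card : ℝ) = (S : ℝ) ^ 2 := by
  rw [ci_filter, card_cells hS i.1.2 i.2.2]
  push_cast
  rfl

/-- sum over the pairs of one cell, cell by cell -/
lemma sum_pairs {S : ℕ} (hS : 1 ≤ S) (hn : S ∣ n) (F : V n → V n → ℝ)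
    (J : Finset (Fin (n / S) × Fin (n / S))) :
    ∑ u ∈ univ.filter (fun u : V n => ci hS hn u ∈ J),
      ∑ v ∈ univ.filter (fun v => ci hS hn v = ci hS hn u), F u v =
    ∑ i ∈ J, ∑ u ∈ univ.filter (fun u : V n => ci hS hn u = i),
      ∑ v ∈ univ.filter (fun v : V n => ci hS hn v = i), F u v := by
  classical
  rw [← Finset.sum_fiberwise_of_maps_to (s := univ.filter (fun u : V n => ci hS hn u ∈ J))
    (t := J) (g := ci hS hn) (fun u hu => (mem_filter.1 hu).2)]
  refine Finset.sum_congr rfl fun i hi => ?_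
  have e1 : (univ.filter (fun u : V n => ci hS hn u ∈ J)).filter (fun u => ci hS hn u = i) =
      univ.filter (fun u : V n => ci hS hn u = i) := by
    ext u
    rw [mem_filter, mem_filter, mem_filter]
    constructor
    · rintro ⟨⟨h1, _⟩, h2⟩
      exact ⟨h1, h2⟩
    · rintro ⟨h1, h2⟩
      exact ⟨⟨h1, by rw [h2]; exact hi⟩, h2⟩
  rw [e1]
  refine Finset.sum_congr rfl fun u hu => ?_
  rw [(mem_filter.1 hu).2]

open Classical in
/-- **The comparison with explicit errors.** -/
theorem core {b : ℝ} (hb : 0 ≤ b) {ε : ℝ} (hε : 0 < ε) {S l m : ℕ} (hS : 1 ≤ S) (hSn : S ∣ n)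
    (hl : 1 ≤ l) (hln : l ∣ n) {μ η Λ : ℝ} (hμ : 0 < μ) (hΛ : 0 ≤ Λ)
    (sus : ∀ i j : ℕ, i < n / S → j < n / S →
      (1 - η) * ((S : ℝ) ^ 2 / ε) * SB n b ε ∅ (fun _ => 1) ≤
        SB n b ε ∅ (fun h => pr (ind (cells n S (i, j))) h ^ 2))
    (fat : ∀ (u : V n) (j : JB n l),
      μ * FK (sg n hb ε) (fun om x => if Mt (sg n hb ε) (ring n) om u ∧
          Mt (sg n hb ε) (cells n l j.1) om u then |(sg n hb ε).D x u| else 0)
      ≤ FK (sg n hb ε) (fun om x => if Mt (sg n hb ε) (ring n) om u ∧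
          Mt (sg n hb ε) (cells n l j.1) om u
        then |(sg n hb ε).D x u| * ms (sg n hb ε) (blk n l j.1) om u x else 0)) :
    FK (sg n hb ε) (fun om x => ∑ u, if Mt (sg n hb ε) (ring n) om u
        then |(sg n hb ε).D x u| * ms (sg n hb ε) univ om u x else 0)
      ≤ (η + 4 * ((2 * m + 1) * l + S) / n + Λ * Real.sqrt ((S : ℝ) ^ 2 / ε) *
          (9 / ((m + 1) * μ)) + 4 * Real.exp 2 / Real.cosh Λ) * ((n : ℝ) ^ 2 / ε) *
          SB n b ε ∅ (fun _ => 1) := by
  set σ := sg n hb ε with hσ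
  set Z : ℝ := SB n b ε ∅ (fun _ => 1) with hZ
  have hZ0 : 0 < Z := SB_pos hb hε ∅
  have hn0 : (0 : ℝ) < n := by exact_mod_cast Nat.pos_of_ne_zero (NeZero.ne n)
  have hS0 : (0 : ℝ) < S := by exact_mod_cast hS
  set v : ℝ := (S : ℝ) ^ 2 / ε with hv
  have hv0 : 0 < v := by positivity
  set cell := ci (n := n) hS hSn with hcell
  set far : Finset (Fin (n / S) × Fin (n / S)) :=
    univ.filter fun i => ∀ u : V n, cell u = i → ((2 * m + 1) * l : ℤ) ≤ rho u with hfar
  have hq : ((n / S : ℕ) : ℝ) * S = n := by exact_mod_cast Nat.div_mul_cancel hSn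
  -- the abstract estimate
  have main := abs_ih (σ := σ) (em_sg hb hε) cell far (ring n)
    (fun j : JB n l => cells n l j.1) (fun j : JB n l => blk n l j.1)
    (μ := μ) (L := 9) (t := (Real.sqrt v)⁻¹) (lam := Λ * Real.sqrt v) (m := m + 1) hμ
    (Nat.succ_pos m) (by norm_num) (by positivity) (by positivity) (fun u _ j => fat u j)
    (fun om x _ u hu hR => by
      have h1 : ((2 * m + 1) * l : ℤ) ≤ rho u := (mem_filter.1 hu).2 u rfl
      refine (cnt_box hR hl hln h1).trans (le_of_eq ?_)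
      congr 1
      ext j
      rw [mem_filter, mem_filter]
      exact Iff.rfl)
    (fun v => ovl_box v)
  refine main.trans ?_
  -- the total sum
  have htot : ∑ u, ∑ v, G2 σ u v ≤ (n : ℝ) ^ 2 / ε * Z := by
    have h1 := G2_sum hb hε (univ : Finset (V n))
    rw [← hσ] at h1
    rw [h1]
    have h2 := sq_le hb hε (ind (univ : Finset (V n)))
    rw [sum_ind_sq] at h2
    have h3 : ((univ : Finset (V n)).card : ℝ) = (n : ℝ) ^ 2 := by
      rw [card_univ, Fintype.card_prod, ZMod.card]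
      push_cast
      ring
    rwa [h3] at h2
  -- cell sums
  have hcs : ∀ i, ∑ u ∈ univ.filter (fun u : V n => cell u = i),
      ∑ v ∈ univ.filter (fun v : V n => cell v = i), G2 σ u v =
      SB n b ε ∅ (fun h => pr (ind (univ.filter (fun u : V n => cell u = i))) h ^ 2) :=
    fun i => G2_sum hb hε _
  -- term 1
  have h1 : (1 - η) * ((n : ℝ) ^ 2 / ε) * Z ≤
      ∑ u, ∑ v ∈ univ.filter (fun v => cell v = cell u), G2 σ u v := by
    have e0 : ∑ u, ∑ v ∈ univ.filter (fun v => cell v = cell u), G2 σ u v =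
        ∑ i, ∑ u ∈ univ.filter (fun u : V n => cell u = i),
          ∑ v ∈ univ.filter (fun v : V n => cell v = i), G2 σ u v := by
      have := sum_pairs hS hSn (fun u v => G2 σ u v) univ
      rw [← this]
      refine Finset.sum_congr ?_ fun _ _ => rfl
      ext u
      simp
    rw [e0]
    have e1 : ∀ i, (1 - η) * v * Z ≤ ∑ u ∈ univ.filter (fun u : V n => cell u = i),
          ∑ v ∈ univ.filter (fun v : V n => cell v = i), G2 σ u v := by
      intro i
      rw [hcs i, hcell, ci_filter]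
      exact sus i.1.val i.2.val i.1.2 i.2.2
    refine le_trans (le_of_eq ?_) (Finset.sum_le_sum fun i (_ : i ∈ univ) => e1 i)
    rw [Finset.sum_const, card_univ, Fintype.card_prod, Fintype.card_fin, nsmul_eq_mul, hv]
    push_cast
    have : (n : ℝ) ^ 2 = (((n / S : ℕ) : ℝ) * ((n / S : ℕ) : ℝ)) * (S : ℝ) ^ 2 := by
      rw [← hq]; ring
    rw [this]
    ring
  -- term 2
  have h2 : ∑ u ∈ univ.filter (fun u => cell u ∉ far),
      ∑ v ∈ univ.filter (fun v => cell v = cell u), G2 σ u v ≤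
      4 * ((2 * m + 1) * l + S) / n * ((n : ℝ) ^ 2 / ε) * Z := by
    have e0 : ∑ u ∈ univ.filter (fun u => cell u ∉ far),
        ∑ v ∈ univ.filter (fun v => cell v = cell u), G2 σ u v =
        ∑ i ∈ farᶜ, ∑ u ∈ univ.filter (fun u : V n => cell u = i),
          ∑ v ∈ univ.filter (fun v : V n => cell v = i), G2 σ u v := by
      rw [← sum_pairs hS hSn (fun u v => G2 σ u v) farᶜ]
      refine Finset.sum_congr ?_ fun _ _ => rfl
      ext u
      exact ⟨fun h => mem_filter.2 ⟨mem_univ _, mem_compl.2 (mem_filter.1 h).2⟩,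
        fun h => mem_filter.2 ⟨mem_univ _, mem_compl.1 (mem_filter.1 h).2⟩⟩
    rw [e0]
    have e1 : ∀ i ∈ farᶜ, ∑ u ∈ univ.filter (fun u : V n => cell u = i),
          ∑ v ∈ univ.filter (fun v : V n => cell v = i), G2 σ u v ≤
        ((univ.filter (fun u : V n => cell u = i)).card : ℝ) / ε * Z := by
      intro i _
      rw [hcs i]
      have h3 := sq_le hb hε (ind (univ.filter (fun u : V n => cell u = i)))
      rwa [sum_ind_sq] at h3
    refine (Finset.sum_le_sum e1).trans ?_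
    rw [← Finset.sum_mul, ← Finset.sum_div]
    have e2 : (∑ i ∈ farᶜ, ((univ.filter (fun u : V n => cell u = i)).card : ℝ)) ≤
        4 * ((2 * m + 1) * l + S) * n := by
      have e3 : ∑ i ∈ farᶜ, (univ.filter (fun u : V n => cell u = i)).card =
          (univ.filter fun u : V n => cell u ∈ farᶜ).card := by
        rw [Finset.card_eq_sum_card_fiberwise (s := univ.filter fun u : V n => cell u ∈ farᶜ)
          (t := farᶜ) (f := cell) (fun u hu => by
            exact_mod_cast (mem_filter.1 hu).2)]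
        refine Finset.sum_congr rfl fun i hi => ?_
        congr 1
        ext u
        rw [mem_filter, mem_filter, mem_filter]
        constructor
        · rintro ⟨h1, h2⟩
          exact ⟨⟨h1, by rw [h2]; exact hi⟩, h2⟩
        · rintro ⟨⟨h1, _⟩, h2⟩
          exact ⟨h1, h2⟩
      have e4 : (univ.filter fun u : V n => cell u ∈ farᶜ) ⊆
          univ.filter fun u : V n => rho u < (((2 * m + 1) * l + S : ℕ) : ℤ) := by
        intro u hu
        rw [mem_filter] at hu ⊢
        refine ⟨mem_univ _, ?_⟩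
        have h3 := hu.2
        rw [mem_compl, hfar, mem_filter, not_and] at h3
        have h4 := h3 (mem_univ _)
        push Not at h4
        obtain ⟨w, hw, h5⟩ := h4
        have h6 : cel S w = cel S u := by
          have h7 := (Prod.ext_iff.1 hw).1
          have h8 := (Prod.ext_iff.1 hw).2
          exact Prod.ext (congrArg Fin.val h7) (congrArg Fin.val h8)
        obtain ⟨h9, h10⟩ := cel_close hS h6
        have h11 := rho_sub h9 h10
        rw [abs_le] at h11
        push_cast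
        linarith [h11.2]
      have e5 := (card_le_card e4).trans (card_near (n := n) ((2 * m + 1) * l + S))
      rw [← e3] at e5
      calc (∑ i ∈ farᶜ, ((univ.filter (fun u : V n => cell u = i)).card : ℝ))
          = ((∑ i ∈ farᶜ, (univ.filter (fun u : V n => cell u = i)).card : ℕ) : ℝ) := by
            push_cast; rfl
        _ ≤ ((4 * ((2 * m + 1) * l + S) * n : ℕ) : ℝ) := by exact_mod_cast e5
        _ = _ := by push_cast; ring
    calc (∑ i ∈ farᶜ, ((univ.filter (fun u : V n => cell u = i)).card : ℝ)) / ε * Z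
        ≤ (4 * ((2 * m + 1) * l + S) * n) / ε * Z :=
          mul_le_mul_of_nonneg_right (div_le_div_of_nonneg_right e2 hε.le) hZ0.le
      _ = _ := by field_simp
  -- term 3
  have h3 : Λ * Real.sqrt v * (9 / (((m + 1 : ℕ) : ℝ) * μ)) * ∑ u, ∑ v, G2 σ u v ≤
      Λ * Real.sqrt v * (9 / ((m + 1) * μ)) * ((n : ℝ) ^ 2 / ε) * Z := by
    have e1 : 0 ≤ Λ * Real.sqrt v * (9 / (((m + 1 : ℕ) : ℝ) * μ)) := by positivity
    refine (mul_le_mul_of_nonneg_left htot e1).trans (le_of_eq ?_)
    push_cast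
    ring
  -- term 4
  have h4 : (Real.cosh ((Real.sqrt v)⁻¹ * (Λ * Real.sqrt v)))⁻¹ * ∑ i ∈ far, ∑' x, σ.tot x *
      ((∑ u ∈ univ.filter (fun u => cell u = i), σ.D x u) ^ 2 *
        Real.exp ((Real.sqrt v)⁻¹ * ∑ u ∈ univ.filter (fun u => cell u = i), σ.D x u)) ≤
      4 * Real.exp 2 / Real.cosh Λ * ((n : ℝ) ^ 2 / ε) * Z := by
    have hs0 : 0 < Real.sqrt v := Real.sqrt_pos.2 hv0
    have e0 : (Real.sqrt v)⁻¹ * (Λ * Real.sqrt v) = Λ := by field_simp
    rw [e0]
    have hch := Real.cosh_pos Λ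
    have e1 : ∀ i ∈ far, ∑' x, σ.tot x *
      ((∑ u ∈ univ.filter (fun u => cell u = i), σ.D x u) ^ 2 *
        Real.exp ((Real.sqrt v)⁻¹ * ∑ u ∈ univ.filter (fun u => cell u = i), σ.D x u)) ≤
        4 * Real.exp 2 * v * Z := by
      intro i _
      have h5 := sq_exp_le hb hε (ind (univ.filter (fun u : V n => cell u = i)))
      rw [sum_ind_sq, hcell, card_ci hS hSn i, ← hv] at h5
      have h6 := h5 hv0
      simp only [pr_ind] at h6
      exact h6
    have e2 : ∑ i ∈ far, ∑' x, σ.tot x *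
      ((∑ u ∈ univ.filter (fun u => cell u = i), σ.D x u) ^ 2 *
        Real.exp ((Real.sqrt v)⁻¹ * ∑ u ∈ univ.filter (fun u => cell u = i), σ.D x u)) ≤
        (((n / S : ℕ) : ℝ) * ((n / S : ℕ) : ℝ)) * (4 * Real.exp 2 * v * Z) := by
      refine (Finset.sum_le_sum e1).trans ?_
      rw [Finset.sum_const, nsmul_eq_mul]
      refine mul_le_mul_of_nonneg_right ?_ (by positivity)
      have h7 : far.card ≤ (n / S) * (n / S) := by
        refine (card_le_univ far).trans ?_
        rw [Fintype.card_prod, Fintype.card_fin]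
      exact_mod_cast h7
    have e3 : (((n / S : ℕ) : ℝ) * ((n / S : ℕ) : ℝ)) * (4 * Real.exp 2 * v * Z) =
        4 * Real.exp 2 * ((n : ℝ) ^ 2 / ε) * Z := by
      rw [hv]
      have : (n : ℝ) ^ 2 = (((n / S : ℕ) : ℝ) * ((n / S : ℕ) : ℝ)) * (S : ℝ) ^ 2 := by
        rw [← hq]; ring
      rw [this]
      ring
    rw [e3] at e2
    refine (mul_le_mul_of_nonneg_left e2 (inv_nonneg.2 hch.le)).trans (le_of_eq ?_)
    field_simp
  have h5 : ∑ u, ∑ v, G2 σ u v - ∑ u, ∑ v ∈ univ.filter (fun v => cell v = cell u), G2 σ u v ≤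
      η * ((n : ℝ) ^ 2 / ε) * Z := by
    have : η * ((n : ℝ) ^ 2 / ε) * Z = (n : ℝ) ^ 2 / ε * Z - (1 - η) * ((n : ℝ) ^ 2 / ε) * Z := by
      ring
    rw [this]
    exact sub_le_sub htot h1
  have h6 := add_le_add (add_le_add (add_le_add h5 h2) h3) h4
  refine h6.trans (le_of_eq ?_)
  ring

end Vale.Agent.P159.TM.H179
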