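import Vale.Agent.P159.TM.H179.Inst
import Vale.Agent.P159.TM.H519.Abs
import Vale.Agent.P159.TM.H682.Bind

/-!
P159, T1, row IH: the one copy system of the free box; the expectations of the interface in its
letters; exponential moments; second moments and exponential moments of linear functionals; the
difference of the second moments of the free box and of the ring box (E3 of 682).
-/

open Finset
open scoped ENNReal

set_option linter.unusedSectionVars false

namespace Vale.Agent.P159.TM.H179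

open Vale.Agent.P159.TM.H60 Vale.Agent.P159.TM.SpecI Vale.Agent.P159.TM.H519
open Vale.Agent.P159.TM.H682 Vale.Agent.P159.T1.H934 Vale.Agent.P159.H353

variable {n : ℕ} [NeZero n]

/-- the one copy system of the free box -/
noncomputable def sg (n : ℕ) [NeZero n] {b : ℝ} (hb : 0 ≤ b) (ε : ℝ) : Sys (V n) (EB n) ℤ :=
  syM sB tB (fun _ => b) (fun _ => ε) (fun _ => hb)

/-- sum over the heights of the box with heights zero on `X` -/
noncomputable def SB (n : ℕ) [NeZero n] (b ε : ℝ) (X : Set (V n)) (F : (V n → ℤ) → ℝ) : ℝ :=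
  H708.SS (grd (sB (n := n)) tB) (fun _ => b) (fun _ => ε) X F

theorem sg_tot {b : ℝ} (hb : 0 ≤ b) (ε : ℝ) (h : V n → ℤ) :
    (sg n hb ε).tot h = H708.bw (grd sB tB) (fun _ => b) (fun _ => ε) ∅ h := by
  unfold sg syM
  rw [tot_sy, Wm_gs]

theorem sum_tot {b : ℝ} (hb : 0 ≤ b) (ε : ℝ) (F : (V n → ℤ) → ℝ) :
    ∑' h, (sg n hb ε).tot h * F h = SB n b ε ∅ F := by
  unfold SB H708.SS
  exact tsum_congr fun h => by rw [sg_tot]

theorem sg_D {b : ℝ} (hb : 0 ≤ b) (ε : ℝ) (h : V n → ℤ) (v : V n) :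
    (sg n hb ε).D h v = (h v : ℝ) := rfl

theorem SB_pos {b : ℝ} (hb : 0 ≤ b) {ε : ℝ} (hε : 0 < ε) (X : Set (V n)) :
    0 < SB n b ε X fun _ => 1 :=
  H708.SS_one_pos _ (fun _ => hb) (fun _ => hε) X

/-- the expectations of the interface -/
theorem ex_eq {b ε : ℝ} (X : Finset (V n)) (F : (V n → ℤ) → ℝ) :
    ex b (inn n) X (full ε) F = SB n b ε (X : Set (V n)) F / SB n b ε (X : Set (V n)) fun _ => 1 := by
  classical
  have key : ∀ h : V n → ℤ, SpecI.wt b (inn n) X (full ε) h =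
      H708.bw (grd sB tB) (fun _ => b) (fun _ => ε) (X : Set (V n)) h := by
    intro h
    unfold SpecI.wt H708.bw Vale.Agent.P159.T1.H934.W full H708.ga H708.iX
    have e1 : ∏ e ∈ inn n, wI b (h (tgt e) - h e.1) = ∏ e : EB n, wI b (grd sB tB h e) := by
      rw [← Finset.prod_coe_sort]
      rfl
    have e2 : -(ε * ∑ x, (h x : ℝ) ^ 2) / 2 = -∑ x, ε / 2 * (h x : ℝ) ^ 2 := by
      rw [← mul_sum]
      ring
    rw [e1, e2]
    by_cases h0 : ∀ x ∈ X, h x = 0
    · rw [if_pos h0, if_pos (by simpa using h0)]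
      ring
    · rw [if_neg h0, if_neg (by simpa using h0)]
      ring
  unfold ex SB H708.SS
  congr 1
  · exact tsum_congr fun h => by rw [key]
  · exact tsum_congr fun h => by rw [key, mul_one]

/-- all exponential moments exist -/
theorem em_sg {b : ℝ} (hb : 0 ≤ b) {ε : ℝ} (hε : 0 < ε) : EM (sg n hb ε) := by
  intro K
  have hg : H708.Gr fun h : V n → ℤ => Real.exp (K * nD (sg n hb ε) h) := by
    refine ⟨1, fun _ => K, fun h => ?_⟩
    rw [abs_of_pos (Real.exp_pos _), one_mul, ← mul_sum]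
    rfl
  have h1 := (H708.bw_summable (D := grd (sB (n := n)) tB) (J := fun _ => b)
    (m := fun _ => ε) (X := ∅) (fun _ => hb) (fun _ => hε) hg).of_abs
  exact h1.congr fun h => by rw [sg_tot]

/-- exponential moments of linear functionals -/
theorem exp_le {b : ℝ} (hb : 0 ≤ b) {ε : ℝ} (hε : 0 < ε) (φ : V n → ℝ) (s : ℝ) :
    (Summable fun h : V n → ℤ => (sg n hb ε).tot h * Real.exp (s * ∑ x, φ x * (h x : ℝ))) ∧
    ∑' h : V n → ℤ, (sg n hb ε).tot h * Real.exp (s * ∑ x, φ x * (h x : ℝ)) ≤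
      Real.exp (s ^ 2 * (∑ x, φ x ^ 2 / ε) / 2) * SB n b ε ∅ fun _ => 1 := by
  have h := H77.bare_le (sB (n := n)) tB (c := fun _ => b) (fun _ => hb) ∅
    (m := fun _ => ε) (fun _ _ => hε) (fun _ => 0) (fun x => s * φ x)
  have e1 : ∑ x ∈ (∅ : Finset (V n))ᶜ, (s * φ x) ^ 2 / (2 * ε) =
      s ^ 2 * (∑ x, φ x ^ 2 / ε) / 2 := by
    rw [Finset.compl_empty, mul_sum, sum_div]
    refine Finset.sum_congr rfl fun x _ => ?_
    field_simp
  have e2 : ∀ h : V n → ℤ, (∏ e, wI b (h (tB e) - h (sB e))) *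
      (∏ x, H77.sA ∅ (fun _ => ε) x (h x)) = (sg n hb ε).tot h := by
    intro h
    rw [sg_tot]
    unfold H708.bw Vale.Agent.P159.T1.H934.W H708.ga H708.iX
    rw [if_pos (fun x hx => absurd hx (Set.notMem_empty x)), mul_one]
    congr 1
    rw [← Finset.sum_neg_distrib, Real.exp_sum]
    refine Finset.prod_congr rfl fun x _ => ?_
    unfold H77.sA
    rw [if_neg (Finset.notMem_empty x)]
    congr 1
    ring
  have e3 : ∀ h : V n → ℤ, ∑ e : EB n, (0 : ℝ) * ((h (tB e) : ℝ) - h (sB e)) +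
      ∑ x, s * φ x * (h x : ℝ) = s * ∑ x, φ x * (h x : ℝ) := by
    intro h
    simp only [zero_mul, sum_const_zero, zero_add]
    rw [mul_sum]
    exact Finset.sum_congr rfl fun x _ => by ring
  simp only [e3, e2, e1, Real.cosh_zero, sub_self, mul_zero, sum_const_zero, zero_add] at h
  refine ⟨h.1, h.2.trans (le_of_eq ?_)⟩
  congr 1
  rw [← sum_tot hb]
  exact tsum_congr fun h => (mul_one _).symm

lemma one_add_le_cosh (y : ℝ) : 1 + y ^ 2 / 2 ≤ Real.cosh y := by
  have h5 : Real.cosh y = 1 + 2 * Real.sinh (y / 2) ^ 2 := by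
    have := Real.cosh_two_mul (y / 2)
    rw [mul_div_cancel₀ y (by norm_num : (2 : ℝ) ≠ 0)] at this
    rw [this, Real.cosh_sq]
    ring
  have h6 : (y / 2) ^ 2 ≤ Real.sinh (y / 2) ^ 2 := by
    rcases le_total 0 (y / 2) with h | h
    · exact pow_le_pow_left₀ h (Real.self_le_sinh_iff.2 h) 2
    · have h7 := Real.sinh_le_self_iff.2 h
      nlinarith
  rw [h5]
  linarith

theorem pr_eq (φ : V n → ℝ) (h : V n → ℤ) : pr φ h = ∑ x, φ x * (h x : ℝ) := rfl

theorem summ_sq {b : ℝ} (hb : 0 ≤ b) {ε : ℝ} (hε : 0 < ε) (φ : V n → ℝ) :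
    Summable fun h : V n → ℤ => (sg n hb ε).tot h * pr φ h ^ 2 := by
  have h1 := (H708.bw_summable (D := grd (sB (n := n)) tB) (J := fun _ => b)
    (m := fun _ => ε) (X := ∅) (fun _ => hb) (fun _ => hε)
    ((H708.gr_lf φ).mul (H708.gr_lf φ))).of_abs
  refine h1.congr fun h => ?_
  rw [sg_tot, pow_two]
  rfl

theorem summ_one {b : ℝ} (hb : 0 ≤ b) {ε : ℝ} (hε : 0 < ε) :
    Summable fun h : V n → ℤ => (sg n hb ε).tot h := by
  have h1 := (H708.bw_summable (D := grd (sB (n := n)) tB) (J := fun _ => b)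
    (m := fun _ => ε) (X := ∅) (fun _ => hb) (fun _ => hε) (H708.Gr.one (V := V n))).of_abs
  refine h1.congr fun h => ?_
  rw [sg_tot, mul_one]

/-- second moments: `E ⟨φ, h⟩² ≤ ∑ φ² / ε` -/
theorem sq_le {b : ℝ} (hb : 0 ≤ b) {ε : ℝ} (hε : 0 < ε) (φ : V n → ℝ) :
    SB n b ε ∅ (fun h => pr φ h ^ 2) ≤ (∑ x, φ x ^ 2 / ε) * SB n b ε ∅ fun _ => 1 := by
  set v : ℝ := ∑ x, φ x ^ 2 / ε with hv
  have hv0 : 0 ≤ v := Finset.sum_nonneg fun x _ => by positivity
  set Z : ℝ := SB n b ε ∅ fun _ => 1 with hZ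
  have hZ0 : 0 < Z := SB_pos hb hε ∅
  set M : ℝ := SB n b ε ∅ (fun h => pr φ h ^ 2) with hM
  have hM' : M = ∑' h, (sg n hb ε).tot h * pr φ h ^ 2 := by rw [hM, sum_tot]
  have hZ' : Z = ∑' h, (sg n hb ε).tot h := by
    rw [hZ, ← sum_tot hb]
    exact tsum_congr fun h => mul_one _
  -- basic inequality
  have key : ∀ s : ℝ, Z + s ^ 2 / 2 * M ≤ Real.exp (s ^ 2 * v / 2) * Z := by
    intro s
    obtain ⟨s1, l1⟩ := exp_le hb hε φ s
    obtain ⟨s2, l2⟩ := exp_le hb hε φ (-s)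
    rw [neg_sq] at l2
    have h1 : ∀ h : V n → ℤ, (sg n hb ε).tot h + s ^ 2 / 2 * ((sg n hb ε).tot h * pr φ h ^ 2) ≤
        ((sg n hb ε).tot h * Real.exp (s * ∑ x, φ x * (h x : ℝ)) +
          (sg n hb ε).tot h * Real.exp (-s * ∑ x, φ x * (h x : ℝ))) / 2 := by
      intro h
      have h2 := one_add_le_cosh (s * pr φ h)
      rw [Real.cosh_eq] at h2
      have h3 := (sg n hb ε).tot_nonneg h
      have h4 := mul_le_mul_of_nonneg_left h2 h3
      rw [← pr_eq]
      rw [show -(s * pr φ h) = -s * pr φ h by ring] at h4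
      nlinarith [h4]
    have h5 := (((summ_one hb hε).add ((summ_sq hb hε φ).mul_left (s ^ 2 / 2)))).tsum_le_tsum h1
      ((s1.add s2).div_const 2)
    rw [(summ_one hb hε).tsum_add ((summ_sq hb hε φ).mul_left (s ^ 2 / 2)), tsum_mul_left,
      ← hM', ← hZ', tsum_div_const, s1.tsum_add s2] at h5
    rw [← hv, ← hZ] at l1 l2
    linarith
  by_contra hc
  rw [not_le] at hc
  -- choose a small `s`
  set g : ℝ := M - v * Z with hg
  have hg0 : 0 < g := by rw [hg]; linarith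
  set r : ℝ := min (1 / (v + 1)) (g / (v ^ 2 * Z + 1)) with hr
  have hr0 : 0 < r := lt_min (by positivity) (by positivity)
  have hr1 : r * v ≤ 1 := by
    have : r ≤ 1 / (v + 1) := min_le_left _ _
    calc r * v ≤ 1 / (v + 1) * v := mul_le_mul_of_nonneg_right this hv0
      _ = v / (v + 1) := by ring
      _ ≤ 1 := by rw [div_le_one (by positivity)]; linarith
  have hr2 : r * (v ^ 2 * Z) ≤ g := by
    have : r ≤ g / (v ^ 2 * Z + 1) := min_le_right _ _
    calc r * (v ^ 2 * Z) ≤ g / (v ^ 2 * Z + 1) * (v ^ 2 * Z) :=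
          mul_le_mul_of_nonneg_right this (by positivity)
      _ = g * ((v ^ 2 * Z) / (v ^ 2 * Z + 1)) := by ring
      _ ≤ g * 1 := by
          refine mul_le_mul_of_nonneg_left ?_ hg0.le
          rw [div_le_one (by positivity)]
          linarith
      _ = g := mul_one g
  have h1 := key (Real.sqrt r)
  rw [Real.sq_sqrt hr0.le] at h1
  have h2 : Real.exp (r * v / 2) ≤ 1 + r * v / 2 + (r * v / 2) ^ 2 := by
    have h3 := Real.abs_exp_sub_one_sub_id_le (x := r * v / 2) (by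
      rw [abs_of_nonneg (by positivity)]; linarith)
    have := (abs_le.1 h3).2
    linarith
  have h3 := h1.trans (mul_le_mul_of_nonneg_right h2 hZ0.le)
  have h4 : r / 2 * M ≤ r / 2 * (v * Z) + r / 2 * (r * (v ^ 2 * Z) / 2) := by nlinarith [h3]
  have h5 : M ≤ v * Z + r * (v ^ 2 * Z) / 2 := by
    have h6 : r / 2 * M ≤ r / 2 * (v * Z + r * (v ^ 2 * Z) / 2) := by linarith
    exact le_of_mul_le_mul_left h6 (by positivity)
  linarith

/-- exponential moments at the scale of the standard deviation bound -/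
theorem sq_exp_le {b : ℝ} (hb : 0 ≤ b) {ε : ℝ} (hε : 0 < ε) (φ : V n → ℝ)
    (hv : 0 < ∑ x, φ x ^ 2 / ε) :
    ∑' h : V n → ℤ, (sg n hb ε).tot h *
        (pr φ h ^ 2 * Real.exp ((Real.sqrt (∑ x, φ x ^ 2 / ε))⁻¹ * pr φ h)) ≤
      (4 * Real.exp 2 * ∑ x, φ x ^ 2 / ε) * SB n b ε ∅ fun _ => 1 := by
  set v : ℝ := ∑ x, φ x ^ 2 / ε with hvd
  set t : ℝ := (Real.sqrt v)⁻¹ with ht
  have hs0 : 0 < Real.sqrt v := Real.sqrt_pos.2 hv
  have htv : t ^ 2 * v = 1 := by
    rw [ht, inv_pow, Real.sq_sqrt hv.le]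
    exact inv_mul_cancel₀ hv.ne'
  set Z : ℝ := SB n b ε ∅ fun _ => 1 with hZ
  have hZ0 : 0 < Z := SB_pos hb hε ∅
  obtain ⟨s1, l1⟩ := exp_le hb hε φ (2 * t)
  obtain ⟨s2, l2⟩ := exp_le hb hε φ (-(2 * t))
  rw [neg_sq, ← hvd, ← hZ] at l2
  rw [← hvd, ← hZ] at l1
  have e4 : (2 * t) ^ 2 * v / 2 = 2 := by
    rw [mul_pow, mul_assoc, htv]
    norm_num
  rw [e4] at l1 l2
  have h1 : ∀ h : V n → ℤ, (sg n hb ε).tot h * (pr φ h ^ 2 * Real.exp (t * pr φ h)) ≤
      2 * v * ((sg n hb ε).tot h * Real.exp (2 * t * ∑ x, φ x * (h x : ℝ)) +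
          (sg n hb ε).tot h * Real.exp (-(2 * t) * ∑ x, φ x * (h x : ℝ))) := by
    intro h
    rw [← pr_eq]
    set y : ℝ := t * pr φ h with hy
    have e1 : pr φ h ^ 2 = v * y ^ 2 := by
      rw [hy, mul_pow, ← mul_assoc, mul_comm v, htv, one_mul]
    have e2 : 2 * t * pr φ h = 2 * y := by rw [hy]; ring
    have e3 : -(2 * t) * pr φ h = -(2 * y) := by rw [hy]; ring
    rw [e1, e2, e3]
    have h2 : y ^ 2 ≤ 2 * Real.exp |y| := by
      have := Real.quadratic_le_exp_of_nonneg (abs_nonneg y)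
      have h3 := abs_nonneg y
      rw [← sq_abs]
      nlinarith
    have h3 : y ^ 2 * Real.exp y ≤ 2 * (Real.exp (2 * y) + Real.exp (-(2 * y))) := by
      calc y ^ 2 * Real.exp y ≤ 2 * Real.exp |y| * Real.exp |y| :=
            mul_le_mul h2 (Real.exp_le_exp.2 (le_abs_self y)) (Real.exp_pos _).le (by positivity)
        _ = 2 * Real.exp (|y| + |y|) := by rw [Real.exp_add]; ring
        _ ≤ 2 * (Real.exp (2 * y) + Real.exp (-(2 * y))) := by
            refine mul_le_mul_of_nonneg_left ?_ (by norm_num)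
            rcases abs_cases y with ⟨h4, _⟩ | ⟨h4, _⟩
            · rw [h4, show y + y = 2 * y by ring]
              linarith [Real.exp_pos (-(2 * y))]
            · rw [h4, show -y + -y = -(2 * y) by ring]
              linarith [Real.exp_pos (2 * y)]
    have h4 := (sg n hb ε).tot_nonneg h
    have h5 := mul_le_mul_of_nonneg_left h3 (mul_nonneg h4 hv.le)
    nlinarith [h5]
  have s3 : Summable fun h : V n → ℤ =>
      (sg n hb ε).tot h * (pr φ h ^ 2 * Real.exp (t * pr φ h)) :=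
    Summable.of_nonneg_of_le (fun h => mul_nonneg ((sg n hb ε).tot_nonneg h) (by positivity)) h1
      ((s1.add s2).mul_left _)
  have h5 := s3.tsum_le_tsum h1 ((s1.add s2).mul_left (2 * v))
  rw [tsum_mul_left, s1.tsum_add s2] at h5
  refine h5.trans ?_
  calc 2 * v * (_ + _) ≤ 2 * v * (Real.exp 2 * Z + Real.exp 2 * Z) :=
        mul_le_mul_of_nonneg_left (add_le_add l1 l2) (by positivity)
    _ = _ := by ring

open Classical in
/-- **E3 in the letters of `H519.abs_ih`.** -/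
theorem e3_box {b : ℝ} (hb : 0 ≤ b) {ε : ℝ} (hε : 0 < ε) (A : Finset (V n)) {φ : V n → ℝ}
    {M : ℝ} (hM : ∀ x, |φ x| ≤ M) :
    SB n b ε ∅ (fun h => pr φ h ^ 2) / SB n b ε ∅ (fun _ => 1) -
      SB n b ε (A : Set (V n)) (fun h => pr φ h ^ 2) / SB n b ε (A : Set (V n)) (fun _ => 1) ≤
      M ^ 2 * FK (sg n hb ε) (fun om x => ∑ u, if Mt (sg n hb ε) A om u
        then |(sg n hb ε).D x u| * ms (sg n hb ε) univ om u x else 0) /
        SB n b ε ∅ (fun _ => 1) := by
  have h1 := e3_var (sB (n := n)) tB (J := fun _ => b) (fun _ => hb) (m := fun _ => ε)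
    (fun _ => hε) A φ
  refine le_trans h1 ?_
  have hZ0 : 0 < SB n b ε ∅ fun _ => 1 := SB_pos hb hε ∅
  refine div_le_div_of_nonneg_right ?_ hZ0.le
  set σ := sg n hb ε with hσ
  have hE : EM σ := em_sg hb hε
  have hM0 : 0 ≤ M := (abs_nonneg _).trans (hM 0)
  show FK σ (fun om x => Xi σ φ A om x) ≤ _
  rw [← FK_mul]
  have hin : ∀ om x u, abs (∑ v ∈ clus σ.s σ.t om u, φ v * |σ.D x v|) ≤
      M * ms σ univ om u x := by
    intro om x u
    refine (Finset.abs_sum_le_sum_abs _ _).trans ?_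
    unfold ms
    rw [mul_sum]
    have h2 : ∑ v, M * (if v ∈ clus σ.s σ.t om u then |σ.D x v| else 0) =
        ∑ v ∈ clus σ.s σ.t om u, M * |σ.D x v| := by
      rw [← Finset.sum_filter_add_sum_filter_not univ (fun v => v ∈ clus σ.s σ.t om u)]
      have h3 : ∑ v ∈ univ.filter (fun v => v ∉ clus σ.s σ.t om u),
          M * (if v ∈ clus σ.s σ.t om u then |σ.D x v| else 0) = 0 :=
        Finset.sum_eq_zero fun v hv => by rw [if_neg (mem_filter.1 hv).2, mul_zero]
      rw [h3, add_zero]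
      refine Finset.sum_congr ?_ fun v hv => ?_
      · ext v; simp
      · rw [if_pos hv]
    rw [h2]
    refine Finset.sum_le_sum fun v _ => ?_
    rw [abs_mul, abs_abs]
    exact mul_le_mul_of_nonneg_right (hM v) (abs_nonneg _)
  have hX : ∀ om x, |Xi σ φ A om x| ≤ M ^ 2 * ∑ u, if Mt σ A om u
      then |σ.D x u| * ms σ univ om u x else 0 := by
    intro om x
    have e1 : Xi σ φ A om x = ∑ u ∈ hull σ.s σ.t om A, φ u * |σ.D x u| *
        ∑ v ∈ clus σ.s σ.t om u, φ v * |σ.D x v| := rfl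
    rw [e1]
    refine (Finset.abs_sum_le_sum_abs _ _).trans ?_
    have e2 : ∑ u, (if Mt σ A om u then |σ.D x u| * ms σ univ om u x else 0) =
        ∑ u ∈ hull σ.s σ.t om A, |σ.D x u| * ms σ univ om u x := by
      rw [← Finset.sum_filter]
      refine Finset.sum_congr ?_ fun _ _ => rfl
      ext u
      rw [mem_filter, mem_hull]
      unfold Mt
      constructor
      · rintro ⟨_, r, hr, hc⟩
        exact ⟨r, hr, (mem_clus.1 hc).symm⟩
      · rintro ⟨r, hr, hc⟩
        exact ⟨mem_univ _, r, hr, mem_clus.2 hc.symm⟩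
    rw [e2, mul_sum]
    refine Finset.sum_le_sum fun u _ => ?_
    rw [abs_mul, abs_mul, abs_abs]
    have h2 := hin om x u
    have h3 := hM u
    have h4 := abs_nonneg (σ.D x u)
    calc |φ u| * |σ.D x u| * abs (∑ v ∈ clus σ.s σ.t om u, φ v * |σ.D x v|)
        ≤ M * |σ.D x u| * (M * ms σ univ om u x) :=
          mul_le_mul (mul_le_mul_of_nonneg_right h3 h4) h2 (abs_nonneg _) (by positivity)
      _ = _ := by ring
  have hG : Gr σ fun om x => M ^ 2 * ∑ u, if Mt σ A om u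
      then |σ.D x u| * ms σ univ om u x else 0 :=
    (Gr.const (M ^ 2)).mul (Gr.sum univ fun u _ => ((Gr.absD u).mul (Gr.ms univ u)).ite _)
  refine FK_mono hE (hG.mono fun om x => ?_) hG fun om x _ => (le_abs_self _).trans (hX om x)
  exact (hX om x).trans (le_abs_self _)

end Vale.Agent.P159.TM.H179
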