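import Vale.Agent.P159.TM.H179.Cell
import Vale.Agent.P159.TM.H504.Flow
import Vale.Agent.P159.TM.H77.Tail

/-!
P159, T1, row IH: the free box as a graph with edge set `EB n` (edges which do not wrap around), in
the letters of `H60.Clus`, `H519.Abs` and `H77.Tail`: number of cells met by a cluster which meets
the ring, overlap of the blocks, flow from a block to the cluster, tail of the rest of the cluster.
-/

open Finset
open scoped ENNReal

set_option linter.unusedSectionVars false

namespace Vale.Agent.P159.TM.H179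

open Vale.Agent.P159.TM.H60 Vale.Agent.P159.TM.H504 Vale.Agent.P159.TM.SpecI
open Vale.Agent.P159.TM.H77

variable {n : ℕ} [NeZero n]

/-- the edges of the free box -/
abbrev EB (n : ℕ) [NeZero n] : Type := {e : V n × Bool // e ∈ inn n}

/-- start of an edge -/
def sB (e : EB n) : V n := e.1.1

/-- end of an edge -/
def tB (e : EB n) : V n := tgt e.1

/-- the set of edges in the big type -/
def big (om : Finset (EB n)) : Finset (V n × Bool) := om.map (Function.Embedding.subtype _)

lemma big_sub (om : Finset (EB n)) : big om ⊆ inn n := by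
  intro e he
  unfold big at he
  rw [mem_map] at he
  obtain ⟨e', _, rfl⟩ := he
  exact e'.2

lemma adj_big {om : Finset (EB n)} {x y : V n} : Adj sB tB om x y ↔ Adj src tgt (big om) x y := by
  unfold Adj big
  constructor
  · rintro ⟨e, he, h⟩
    exact ⟨e.1, mem_map_of_mem _ he, h⟩
  · rintro ⟨e, he, h⟩
    rw [mem_map] at he
    obtain ⟨e', he', rfl⟩ := he
    exact ⟨e', he', h⟩

lemma conn_big {om : Finset (EB n)} {x y : V n} :
    Conn sB tB om x y ↔ Conn src tgt (big om) x y := by
  unfold Conn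
  have h : Adj sB tB om = Adj src tgt (big om) := by
    funext x y
    exact propext adj_big
  rw [h]

/-- interior cells as an index type -/
abbrev JB (n l : ℕ) : Type :=
  {β : ℕ × ℕ // β ∈ (range (n / l) ×ˢ range (n / l)).filter fun β =>
    1 ≤ β.1 ∧ β.1 + 2 ≤ n / l ∧ 1 ≤ β.2 ∧ β.2 + 2 ≤ n / l}

lemma JB.int {l : ℕ} (j : JB n l) : Int3 n l j.1 := (mem_filter.1 j.2).2

lemma mem_JB {l : ℕ} {β : ℕ × ℕ} (h : Int3 n l β) :
    β ∈ (range (n / l) ×ˢ range (n / l)).filter fun β =>
      1 ≤ β.1 ∧ β.1 + 2 ≤ n / l ∧ 1 ≤ β.2 ∧ β.2 + 2 ≤ n / l := by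
  rw [mem_filter, mem_product, mem_range, mem_range]
  obtain ⟨h1, h2, h3, h4⟩ := h
  exact ⟨⟨by omega, by omega⟩, h1, h2, h3, h4⟩

open Classical in
/-- **number of interior cells** met by a cluster which meets the ring (`cnt` of `H519.abs_ih`) -/
theorem cnt_box {om : Finset (EB n)} {u : V n} (h : ∃ r ∈ ring n, r ∈ clus sB tB om u) {l m : ℕ}
    (hl : 1 ≤ l) (hn : l ∣ n) (hu : ((2 * m + 1) * l : ℤ) ≤ rho u) :
    m + 1 ≤ (univ.filter fun j : JB n l => ∃ r ∈ cells n l j.1, r ∈ clus sB tB om u).card := by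
  obtain ⟨v, hv, hc⟩ := h
  rw [mem_clus, conn_big] at hc
  obtain ⟨S, hS, hb⟩ := many_cells (big_sub om) hc hv hl hn hu
  rw [← hS]
  have h1 : S ⊆ (univ.filter fun j : JB n l => ∃ r ∈ cells n l j.1, r ∈ clus sB tB om u).image
      (fun j => j.1) := by
    intro β hβ
    obtain ⟨h2, x, h3, h4⟩ := hb β hβ
    rw [mem_image]
    refine ⟨⟨β, mem_JB h2⟩, ?_, rfl⟩
    rw [mem_filter]
    refine ⟨mem_univ _, x, mem_cells.2 h4, ?_⟩
    rw [mem_clus, conn_big]
    exact h3
  exact (card_le_card h1).trans card_image_le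

open Classical in
/-- **overlap of the blocks** (`ovl` of `H519.abs_ih`, `L = 9`) -/
theorem ovl_box {l : ℕ} (v : V n) :
    ((univ.filter fun j : JB n l => v ∈ blk n l j.1).card : ℝ) ≤ 9 := by
  have h1 : (univ.filter fun j : JB n l => v ∈ blk n l j.1).card ≤ 9 := by
    have h2 := overlap (n := n) (l := l)
      ((univ.filter fun j : JB n l => v ∈ blk n l j.1).image fun j => j.1) v
    rw [← card_image_of_injective (univ.filter fun j : JB n l => v ∈ blk n l j.1)
      Subtype.val_injective]
    refine le_trans (card_le_card ?_) h2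
    intro β hβ
    rw [mem_image] at hβ
    obtain ⟨j, hj, rfl⟩ := hβ
    rw [mem_filter] at hj ⊢
    exact ⟨mem_image_of_mem _ (mem_filter.2 hj), hj.2⟩
  exact_mod_cast h1

/-- **flow from the block to the cluster** -/
theorem flow_box {om : Finset (EB n)} {u : V n} (h : ∃ r ∈ ring n, r ∈ clus sB tB om u) {l : ℕ}
    (hl : 1 ≤ l) {j : JB n l} (hj : ∃ r ∈ cells n l j.1, r ∈ clus sB tB om u) :
    ∃ a : EB n → ℝ, (∀ φ : V n → ℝ, (∀ y ∈ clus sB tB om u, φ y = 0) →
        ∑ y ∈ blk n l j.1, φ y = ∑ e, a e * (φ (tB e) - φ (sB e))) ∧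
      (∀ e, |a e| ≤ 9 * l) ∧ ∑ e, a e ^ 2 ≤ 324 * (l : ℝ) ^ 4 := by
  classical
  obtain ⟨v, hvr, hv⟩ := h
  obtain ⟨x, hx1, hx⟩ := hj
  rw [mem_clus, conn_big] at hv hx
  rw [mem_cells] at hx1
  have hi : Int3 n l (cel l x) := by rw [hx1]; exact j.int
  have hxv : Conn src tgt (big om) x v := hx.symm.trans hv
  have h1 := rho_of_int3 hl hi
  have h2 := rho_ring hvr
  have hd : (l : ℤ) ≤ |px v - px x| ∨ (l : ℤ) ≤ |py v - py x| := by
    by_contra hc
    have hc1 : |px v - px x| ≤ (l : ℤ) - 1 := by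
      have := fun h => hc (Or.inl h)
      omega
    have hc2 : |py v - py x| ≤ (l : ℤ) - 1 := by
      have := fun h => hc (Or.inr h)
      omega
    have h3 := rho_sub hc1 hc2
    rw [h2, abs_le] at h3
    omega
  obtain ⟨m, c, c0, h3, h4, h5, h6⟩ := path_block (big_sub om) hxv hl hd
  obtain ⟨a, b, f1, f2, f3, f4⟩ := flow_of_path (ℓ := l) (N := 3 * l)
    (p := (((cel l x).1 : ℤ) - 1) * l) (q := (((cel l x).2 : ℤ) - 1) * l) hl
    (fun i => (px (c i), py (c i))) m h4 h5 h6
  rw [hx1] at f1 f4 hi h4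
  set β := j.1 with hβ
  obtain ⟨b1, b2, b3, b4⟩ := int3_bd hi
  set p : ℤ := ((β.1 : ℤ) - 1) * l with hp
  set q : ℤ := ((β.2 : ℤ) - 1) * l with hq
  have hl0 : (0 : ℝ) < l := by exact_mod_cast hl
  have hN9 : (((3 * l : ℕ) : ℝ)) ^ 2 / l = 9 * l := by
    push_cast
    field_simp
    ring
  set A1 := Ico p (p + ((3 * l : ℕ) : ℤ) - 1) ×ˢ Ico q (q + ((3 * l : ℕ) : ℤ)) with hA1
  set A2 := Ico p (p + ((3 * l : ℕ) : ℤ)) ×ˢ Ico q (q + ((3 * l : ℕ) : ℤ) - 1) with hA2
  have hb1 : ∀ z ∈ A1, 0 ≤ z.1 ∧ z.1 + 1 < n ∧ 0 ≤ z.2 ∧ z.2 < n := by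
    intro z hz
    rw [hA1, mem_product, mem_Ico, mem_Ico] at hz
    omega
  have hb2 : ∀ z ∈ A2, 0 ≤ z.1 ∧ z.1 < n ∧ 0 ≤ z.2 ∧ z.2 + 1 < n := by
    intro z hz
    rw [hA2, mem_product, mem_Ico, mem_Ico] at hz
    omega
  -- the flow on the edges of the free box
  set F : EB n → ℝ := fun e =>
    if e.1.2 = false then (if (px e.1.1, py e.1.1) ∈ A1 then a (px e.1.1, py e.1.1) else 0)
    else (if (px e.1.1, py e.1.1) ∈ A2 then b (px e.1.1, py e.1.1) else 0) with hF
  -- a sum over the edges as two sums over the block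
  have hsum : ∀ (f1 f2 : ℤ × ℤ → ℝ) (g : V n → V n → ℝ),
      ∑ e : EB n, (if e.1.2 = false
        then (if (px e.1.1, py e.1.1) ∈ A1 then f1 (px e.1.1, py e.1.1) else 0)
        else (if (px e.1.1, py e.1.1) ∈ A2 then f2 (px e.1.1, py e.1.1) else 0)) *
          g (sB e) (tB e) =
      ∑ z ∈ A1, f1 z * g (pt z) (pt (z.1 + 1, z.2)) +
        ∑ z ∈ A2, f2 z * g (pt z) (pt (z.1, z.2 + 1)) := by
    intro f1 f2 g
    set H : V n × Bool → ℝ := fun e => (if e.2 = false
        then (if (px e.1, py e.1) ∈ A1 then f1 (px e.1, py e.1) else 0)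
        else (if (px e.1, py e.1) ∈ A2 then f2 (px e.1, py e.1) else 0)) * g e.1 (tgt e) with hH
    have e1 : ∑ e : EB n, (if e.1.2 = false
        then (if (px e.1.1, py e.1.1) ∈ A1 then f1 (px e.1.1, py e.1.1) else 0)
        else (if (px e.1.1, py e.1.1) ∈ A2 then f2 (px e.1.1, py e.1.1) else 0)) *
          g (sB e) (tB e) = ∑ e ∈ inn n, H e := by
      rw [← Finset.sum_coe_sort (inn n) H]
      exact Finset.sum_congr rfl fun e _ => rfl
    rw [e1, ← Finset.sum_filter_add_sum_filter_not (inn n) (fun e => e.2 = false)]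
    congr 1
    · have hinj : Set.InjOn (fun z : ℤ × ℤ => ((pt z : V n), false)) (A1 : Set (ℤ × ℤ)) := by
        intro z hz z' hz' he
        have g1 := hb1 z hz
        have g2 := hb1 z' hz'
        exact pt_inj (by omega) (by omega) (Prod.ext_iff.1 he).1
      have e2 : ∑ z ∈ A1, f1 z * g (pt z) (pt (z.1 + 1, z.2)) =
          ∑ e ∈ A1.image (fun z : ℤ × ℤ => ((pt z : V n), false)), H e := by
        rw [Finset.sum_image hinj]
        refine Finset.sum_congr rfl fun z hz => ?_
        have g1 := hb1 z hz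
        rw [hH]
        simp only [if_true]
        rw [px_pt (by omega) (by omega), py_pt (by omega) (by omega), if_pos hz]
        simp only [pt, tgt, Bool.false_eq_true, if_false, Int.cast_add, Int.cast_one]
      rw [e2]
      symm
      refine Finset.sum_subset ?_ ?_
      · intro e he
        rw [mem_image] at he
        obtain ⟨z, hz, rfl⟩ := he
        have g1 := hb1 z hz
        rw [mem_filter, mem_inn]
        refine ⟨?_, rfl⟩
        simp only [Bool.false_eq_true, if_false]
        have g2 := px_pt (n := n) (z := z) g1.1 (by omega)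
        unfold px at g2
        omega
      · intro e he1 he2
        rw [mem_filter] at he1
        obtain ⟨y, d⟩ := e
        have hd' : d = false := he1.2
        subst hd'
        rw [hH]
        simp only [if_true]
        rw [if_neg, zero_mul]
        intro hc
        apply he2
        rw [mem_image]
        exact ⟨_, hc, by rw [pt_px]⟩
    · have hinj : Set.InjOn (fun z : ℤ × ℤ => ((pt z : V n), true)) (A2 : Set (ℤ × ℤ)) := by
        intro z hz z' hz' he
        have g1 := hb2 z hz
        have g2 := hb2 z' hz'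
        exact pt_inj (by omega) (by omega) (Prod.ext_iff.1 he).1
      have e2 : ∑ z ∈ A2, f2 z * g (pt z) (pt (z.1, z.2 + 1)) =
          ∑ e ∈ A2.image (fun z : ℤ × ℤ => ((pt z : V n), true)), H e := by
        rw [Finset.sum_image hinj]
        refine Finset.sum_congr rfl fun z hz => ?_
        have g1 := hb2 z hz
        rw [hH]
        simp only [Bool.true_eq_false, if_false]
        rw [px_pt (by omega) (by omega), py_pt (by omega) (by omega), if_pos hz]
        simp only [pt, tgt, if_true, Int.cast_add, Int.cast_one]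
      rw [e2]
      symm
      refine Finset.sum_subset ?_ ?_
      · intro e he
        rw [mem_image] at he
        obtain ⟨z, hz, rfl⟩ := he
        have g1 := hb2 z hz
        rw [mem_filter, mem_inn]
        refine ⟨?_, by simp⟩
        simp only [if_true]
        have g2 := py_pt (n := n) (z := z) g1.2.2.1 (by omega)
        unfold py at g2
        omega
      · intro e he1 he2
        rw [mem_filter] at he1
        obtain ⟨y, d⟩ := e
        have hd' : d = true := by simpa using he1.2
        subst hd'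
        rw [hH]
        simp only [Bool.true_eq_false, if_false]
        rw [if_neg, zero_mul]
        intro hc
        apply he2
        rw [mem_image]
        exact ⟨_, hc, by rw [pt_px]⟩
  refine ⟨F, fun φ hφ => ?_, fun e => ?_, ?_⟩
  · have g1 := f1 (fun z => φ (pt z)) (fun i hi' => by
      rw [pt_px]
      apply hφ
      rw [mem_clus, conn_big]
      exact hx.trans (h3 i hi'))
    rw [hp, hq, sum_blk hl hi] at g1
    rw [g1, hF]
    have g2 := hsum a b (fun y y' => φ y' - φ y)
    simp only at g2 ⊢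
    rw [g2]
    unfold Dv
    rw [← Finset.sum_product', ← Finset.sum_product']
  · rw [hF]
    simp only
    have h9 : (0 : ℝ) ≤ 9 * l := by positivity
    split_ifs
    · exact (f2 _).trans hN9.le
    · rw [abs_zero]; exact h9
    · exact (f3 _).trans hN9.le
    · rw [abs_zero]; exact h9
  · have g2 := hsum (fun z => a z ^ 2) (fun z => b z ^ 2) (fun _ _ => 1)
    simp only [mul_one] at g2
    have g3 : ∑ e : EB n, F e ^ 2 = ∑ z ∈ A1, a z ^ 2 + ∑ z ∈ A2, b z ^ 2 := by
      rw [← g2, hF]
      refine Finset.sum_congr rfl fun e _ => ?_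
      simp only
      split_ifs <;> simp
    rw [g3, hA1, hA2, Finset.sum_product, Finset.sum_product]
    unfold Fe at f4
    refine f4.trans (le_of_eq ?_)
    push_cast
    rw [mul_div_assoc, div_self hl0.ne']
    ring

lemma cosh_sub_one_le (x : ℝ) : Real.cosh x - 1 ≤ x ^ 2 / 2 * Real.cosh x := by
  have h1 : ∀ y : ℝ, 0 ≤ y → Real.cosh y - 1 ≤ y ^ 2 / 2 * Real.cosh y := by
    intro y hy
    have h2 : Real.sinh (y / 2) ≤ y / 2 * Real.cosh (y / 2) := by
      have h3 := Real.one_le_cosh (y / 2)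
      have h4 : ∀ z : ℝ, 0 ≤ z → Real.sinh z ≤ z * Real.cosh z := by
        intro z hz
        have hd : ∀ w : ℝ, HasDerivAt (fun w => w * Real.cosh w - Real.sinh w)
            (w * Real.sinh w) w := by
          intro w
          have h5 : HasDerivAt (fun w => w * Real.cosh w - Real.sinh w)
              (1 * Real.cosh w + w * Real.sinh w - Real.cosh w) w :=
            ((hasDerivAt_id' w).mul (Real.hasDerivAt_cosh w)).sub (Real.hasDerivAt_sinh w)
          have e : 1 * Real.cosh w + w * Real.sinh w - Real.cosh w = w * Real.sinh w := by ring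
          rwa [e] at h5
        have hm : MonotoneOn (fun w => w * Real.cosh w - Real.sinh w) (Set.Ici (0 : ℝ)) := by
          apply monotoneOn_of_deriv_nonneg (convex_Ici 0)
          · exact fun w _ => (hd w).continuousAt.continuousWithinAt
          · exact fun w _ => (hd w).differentiableAt.differentiableWithinAt
          · intro w hw
            rw [interior_Ici] at hw
            rw [(hd w).deriv]
            exact mul_nonneg (le_of_lt hw) (Real.sinh_nonneg_iff.2 (le_of_lt hw))
        have := hm (Set.mem_Ici.2 le_rfl) (Set.mem_Ici.2 hz) hz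
        simp only [zero_mul, Real.sinh_zero, sub_zero] at this
        linarith
      exact h4 _ (by positivity)
    have h5 : Real.cosh y = 1 + 2 * Real.sinh (y / 2) ^ 2 := by
      have := Real.cosh_two_mul (y / 2)
      rw [mul_div_cancel₀ y (by norm_num : (2 : ℝ) ≠ 0)] at this
      rw [this, Real.cosh_sq]
      ring
    have h6 : Real.cosh y = 2 * Real.cosh (y / 2) ^ 2 - 1 := by
      rw [h5, Real.cosh_sq]
      ring
    have h7 : 0 ≤ Real.sinh (y / 2) := Real.sinh_nonneg_iff.2 (by positivity)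
    have h8 : Real.sinh (y / 2) ^ 2 ≤ (y / 2 * Real.cosh (y / 2)) ^ 2 :=
      pow_le_pow_left₀ h7 h2 2
    have h9 := Real.one_le_cosh y
    have h10 : Real.cosh y - 1 ≤ y ^ 2 / 2 * Real.cosh (y / 2) ^ 2 := by
      rw [h5]
      nlinarith
    have h11 : Real.cosh (y / 2) ^ 2 ≤ Real.cosh y := by
      rw [h6]
      have := Real.one_le_cosh (y / 2)
      nlinarith
    exact h10.trans (mul_le_mul_of_nonneg_left h11 (by positivity))
  rcases le_total 0 x with hx | hx
  · exact h1 x hx
  · have := h1 (-x) (by linarith)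
    rwa [Real.cosh_neg, neg_sq] at this

/-- **Tail of the rest of a cluster in a block**, free box, constant coupling `b` (77's letters):
the sum over the `3 × 3` block of an interior cell met by the cluster of `u`, which meets the
ring. -/
theorem tail_box {b : ℝ} (hb : 0 ≤ b) {om : Finset (EB n)} {u : V n}
    (h : ∃ r ∈ ring n, r ∈ clus sB tB om u) {l : ℕ} (hl : 1 ≤ l) {j : JB n l}
    (hj : ∃ r ∈ cells n l j.1, r ∈ clus sB tB om u) {m : V n → ℝ} (hm : ∀ v, 0 < m v)
    {x : V n → ℤ} (hx : ∀ v ∈ clus sB tB om u, x v ≠ 0) {τ : ℝ} (h0 : 0 ≤ τ) (h1 : τ ≤ 1)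
    (H : ℝ) :
    ∑' y : {v // v ∉ clus sB tB om u} → ℤ,
      restw1 sB tB (fun _ => b) m (clus sB tB om u) x y *
        (if H * (l : ℝ) ^ 2 ≤ ∑ v ∈ blk n l j.1, (gl (clus sB tB om u) 0 y v : ℝ) then 1 else 0) ≤
      ENNReal.ofReal (Real.exp (162 * b * Real.cosh 9 * τ ^ 2 - τ * H)) *
        ∑' y : {v // v ∉ clus sB tB om u} → ℤ,
          restw1 sB tB (fun _ => b) m (clus sB tB om u) x y := by
  classical
  obtain ⟨a, ha1, ha2, ha3⟩ := flow_box h hl hj
  have hl0 : (1 : ℝ) ≤ l := by exact_mod_cast hl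
  have hlp : (0 : ℝ) < l := by linarith
  set θ : ℝ := τ / (l : ℝ) ^ 2 with hθ
  have hθ0 : 0 ≤ θ := by positivity
  refine rest_tail sB tB (b := fun _ => b) (fun _ => hb) (A := clus sB tB om u) (m := m)
    (fun v _ => hm v) hx (fun e => θ * a e) (fun _ => 0) (B := blk n l j.1) (θ := θ) hθ0 ?_ ?_
  · intro w hw
    rw [ha1 (fun v => (w v : ℝ)) (fun y hy => by rw [hw y hy]; simp), mul_sum]
    simp only [zero_mul, sum_const_zero, add_zero]
    exact Finset.sum_congr rfl fun e _ => by ring
  · apply Real.exp_le_exp.2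
    have hc : ∀ e, b * (Real.cosh (θ * a e) - 1) ≤ b * Real.cosh 9 / 2 * θ ^ 2 * a e ^ 2 := by
      intro e
      have h2 : |θ * a e| ≤ 9 := by
        rw [abs_mul, abs_of_nonneg hθ0]
        calc θ * |a e| ≤ θ * (9 * l) := mul_le_mul_of_nonneg_left (ha2 e) hθ0
          _ = 9 * τ / l := by rw [hθ]; field_simp
          _ ≤ 9 := by
            rw [div_le_iff₀ hlp]
            nlinarith
      have h3 := cosh_sub_one_le (θ * a e)
      have h4 : Real.cosh (θ * a e) ≤ Real.cosh 9 := by
        rw [Real.cosh_le_cosh, abs_of_nonneg (by norm_num : (0 : ℝ) ≤ 9)]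
        exact h2
      have h5 : Real.cosh (θ * a e) - 1 ≤ (θ * a e) ^ 2 / 2 * Real.cosh 9 :=
        h3.trans (mul_le_mul_of_nonneg_left h4 (by positivity))
      calc b * (Real.cosh (θ * a e) - 1) ≤ b * ((θ * a e) ^ 2 / 2 * Real.cosh 9) :=
            mul_le_mul_of_nonneg_left h5 hb
        _ = _ := by ring
    have h6 : ∑ e, b * (Real.cosh (θ * a e) - 1) ≤ 162 * b * Real.cosh 9 * τ ^ 2 := by
      refine (Finset.sum_le_sum fun e _ => hc e).trans ?_
      rw [← mul_sum]
      have hch : (0 : ℝ) < Real.cosh 9 := Real.cosh_pos 9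
      calc b * Real.cosh 9 / 2 * θ ^ 2 * ∑ e, a e ^ 2
          ≤ b * Real.cosh 9 / 2 * θ ^ 2 * (324 * (l : ℝ) ^ 4) :=
            mul_le_mul_of_nonneg_left ha3 (by positivity)
        _ = _ := by
            rw [hθ]
            field_simp
            ring
    have h7 : θ * (H * (l : ℝ) ^ 2) = τ * H := by
      rw [hθ]
      field_simp
    have h8 : ∑ v ∈ (clus sB tB om u)ᶜ, ((fun _ : V n => (0 : ℝ)) v) ^ 2 / (2 * m v) = 0 := by
      apply Finset.sum_eq_zero
      intro v _
      simp
    rw [h8, h7]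
    linarith

end Vale.Agent.P159.TM.H179
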